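import Vale.Agent.P330.H143.Semi

/-!
# Bias of homogeneous polynomials on the orbit of `SL₃(K)` (P330, EXP4)
-/

set_option linter.all false

namespace Vale.Agent.P330.H143

open Finset Module Matrix

variable {K : Type*} [Field K] [Fintype K] [Algebra (ZMod 2) K]

/-- additive character attached to a functional -/
def ps (l : K →ₗ[ZMod 2] ZMod 2) (a : K) : ℝ := sgn (l a)

lemma ps_add (l : K →ₗ[ZMod 2] ZMod 2) (a b : K) : ps l (a + b) = ps l a * ps l b := by
  rw [ps, map_add, sgn_add]; rfl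

lemma ps_zero (l : K →ₗ[ZMod 2] ZMod 2) : ps l 0 = 1 := by simp [ps]

lemma ps_le (l : K →ₗ[ZMod 2] ZMod 2) (a : K) : ps l a ≤ 1 := (le_abs_self _).trans (abs_sgn _).le

lemma sum_ps_mul (l : K →ₗ[ZMod 2] ZMod 2) (hl : l ≠ 0) (b : K) (hb : b ≠ 0) :
    ∑ a : K, ps l (a * b) = 0 := by
  have h1 := sum_sgn_left (V := K) l hl
  rw [← h1]
  exact Equiv.sum_comp (Equiv.mulRight₀ b hb) fun a => sgn (l a)

open Classical in
/-- the monomial sum over the units -/
noncomputable def TT (l : K →ₗ[ZMod 2] ZMod 2) (d : ℕ) (a : K) : ℝ :=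
  ∑ c : Kˣ, ps l (a * (c : K) ^ d)

open Classical in
lemma card_pow_eq (d : ℕ) (hd : 1 ≤ d) (a : K) :
    (univ.filter fun c : Kˣ => (c : K) ^ d = a).card ≤ d := by
  have h1 := Polynomial.card_nthRoots d a
  have h2 : (univ.filter fun c : Kˣ => (c : K) ^ d = a).card
      ≤ (Polynomial.nthRoots d a).toFinset.card := by
    refine Finset.card_le_card_of_injOn (fun c : Kˣ => (c : K)) ?_ ?_
    · intro c hc
      simp only [Finset.coe_filter, Set.mem_setOf_eq, Finset.mem_univ, true_and] at hc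
      simp only [Finset.mem_coe, Multiset.mem_toFinset]
      rw [Polynomial.mem_nthRoots (by omega)]
      exact hc
    · intro x _ y _ h
      exact Units.ext h
  exact h2.trans ((Multiset.toFinset_card_le _).trans h1)

open Classical in
lemma TT_orbit (l : K →ₗ[ZMod 2] ZMod 2) (d : ℕ) (a : K) (b : Kˣ) :
    TT l d (a * (b : K) ^ d) = TT l d a := by
  unfold TT
  rw [← Equiv.sum_comp (Equiv.mulLeft b) fun c : Kˣ => ps l (a * (c : K) ^ d)]
  refine Finset.sum_congr rfl fun c _ => ?_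
  simp only [Equiv.coe_mulLeft, Units.val_mul]
  congr 1
  ring

lemma ch2 (x : K) : x + x = 0 := by
  have : (2 : ZMod 2) = 0 := by decide
  have h : ((2 : ZMod 2)) • x = 0 := by rw [this, zero_smul]
  rw [two_smul] at h
  exact h

lemma add_eq_zero_ch2 (x y : K) : x + y = 0 ↔ x = y := by
  constructor
  · intro h
    calc x = x + (y + y) := by rw [ch2, add_zero]
      _ = (x + y) + y := by ring
      _ = y := by rw [h, zero_add]
  · rintro rfl
    exact ch2 x

open Classical in
lemma sum_TT_sq (l : K →ₗ[ZMod 2] ZMod 2) (hl : l ≠ 0) (d : ℕ) (hd : 1 ≤ d) :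
    ∑ a : K, TT l d a ^ 2 ≤ (Fintype.card K : ℝ) * (Fintype.card Kˣ * d) := by
  have h1 : ∀ a : K, TT l d a ^ 2 =
      ∑ c : Kˣ, ∑ c' : Kˣ, ps l (a * ((c : K) ^ d + (c' : K) ^ d)) := by
    intro a
    unfold TT
    rw [sq, Finset.sum_mul_sum]
    refine Finset.sum_congr rfl fun c _ => Finset.sum_congr rfl fun c' _ => ?_
    rw [mul_add, ps_add]
  simp only [h1]
  rw [Finset.sum_comm]
  have h2 : ∀ c : Kˣ, ∑ a : K, ∑ c' : Kˣ, ps l (a * ((c : K) ^ d + (c' : K) ^ d))
      ≤ (Fintype.card K : ℝ) * d := by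
    intro c
    rw [Finset.sum_comm]
    have h3 : ∀ c' : Kˣ, ∑ a : K, ps l (a * ((c : K) ^ d + (c' : K) ^ d))
        = if (c' : K) ^ d = (c : K) ^ d then (Fintype.card K : ℝ) else 0 := by
      intro c'
      split_ifs with h
      · have : (c : K) ^ d + (c' : K) ^ d = 0 := (add_eq_zero_ch2 _ _).2 h.symm
        rw [this]
        simp [ps_zero]
      · exact sum_ps_mul l hl _ fun h' => h ((add_eq_zero_ch2 _ _).1 h').symm
    rw [Finset.sum_congr rfl fun c' _ => h3 c', ← Finset.sum_filter, Finset.sum_const,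
      nsmul_eq_mul, mul_comm]
    have h4 := card_pow_eq (K := K) d hd ((c : K) ^ d)
    have h5 : ((univ.filter fun c' : Kˣ => (c' : K) ^ d = (c : K) ^ d).card : ℝ) ≤ d := by
      exact_mod_cast h4
    exact mul_le_mul_of_nonneg_left h5 (Nat.cast_nonneg _)
  calc _ ≤ ∑ c : Kˣ, (Fintype.card K : ℝ) * d := Finset.sum_le_sum fun c _ => h2 c
    _ = _ := by
      rw [Finset.sum_const, Finset.card_univ, nsmul_eq_mul]; ring

open Classical in
lemma TT_bound (l : K →ₗ[ZMod 2] ZMod 2) (hl : l ≠ 0) (d : ℕ) (hd : 1 ≤ d) (a : K) (ha : a ≠ 0) :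
    TT l d a ^ 2 ≤ (Fintype.card K : ℝ) * d ^ 2 := by
  have hu : (0 : ℝ) < Fintype.card Kˣ := by
    have : 0 < Fintype.card Kˣ := Fintype.card_pos
    exact_mod_cast this
  have h1 : (Fintype.card Kˣ : ℝ) * TT l d a ^ 2 = ∑ b : Kˣ, TT l d (a * (b : K) ^ d) ^ 2 := by
    simp only [TT_orbit]
    rw [Finset.sum_const, Finset.card_univ, nsmul_eq_mul]
  have h2 : ∑ b : Kˣ, TT l d (a * (b : K) ^ d) ^ 2 ≤ d * ∑ x : K, TT l d x ^ 2 := by
    have h3 : ∀ b : Kˣ, TT l d (a * (b : K) ^ d) ^ 2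
        = ∑ x : K, if x = a * (b : K) ^ d then TT l d x ^ 2 else 0 := by
      intro b
      rw [Finset.sum_ite_eq' univ (a * (b : K) ^ d) fun x => TT l d x ^ 2]
      simp
    simp only [h3]
    rw [Finset.sum_comm, Finset.mul_sum]
    refine Finset.sum_le_sum fun x _ => ?_
    rw [← Finset.sum_filter, Finset.sum_const, nsmul_eq_mul]
    refine mul_le_mul_of_nonneg_right ?_ (sq_nonneg _)
    have h4 := card_pow_eq (K := K) d hd (x / a)
    have h5 : (univ.filter fun b : Kˣ => x = a * (b : K) ^ d)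
        = univ.filter fun b : Kˣ => (b : K) ^ d = x / a := by
      ext b
      simp only [Finset.mem_filter, Finset.mem_univ, true_and]
      rw [eq_div_iff ha]
      constructor
      · intro h; rw [h]; ring
      · intro h; rw [← h]; ring
    rw [h5]
    exact_mod_cast h4
  have h6 := sum_TT_sq l hl d hd
  have h7 : (Fintype.card Kˣ : ℝ) * TT l d a ^ 2
      ≤ (Fintype.card Kˣ : ℝ) * ((Fintype.card K : ℝ) * d ^ 2) := by
    rw [h1]
    calc _ ≤ (d : ℝ) * ∑ x : K, TT l d x ^ 2 := h2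
      _ ≤ d * ((Fintype.card K : ℝ) * (Fintype.card Kˣ * d)) :=
          mul_le_mul_of_nonneg_left h6 (Nat.cast_nonneg _)
      _ = _ := by ring
  exact le_of_mul_le_mul_left h7 hu

open Classical in
/-- exponential sum of a homogeneous function with few zeros over the nonzero vectors -/
lemma sum_hom (l : K →ₗ[ZMod 2] ZMod 2) (hl : l ≠ 0) (d : ℕ) (hd : 1 ≤ d)
    (hq : 64 * d ^ 2 ≤ Fintype.card K) (P : (Fin 3 → K) → K)
    (hP : ∀ (c : K) u, P (c • u) = c ^ d * P u)
    (hZ : (univ.filter fun u : Fin 3 → K => P u = 0).card ≤ d * Fintype.card K ^ 2) :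
    4 * (univ.filter fun u : Fin 3 → K => u ≠ 0 ∧ l (P u) ≠ 0).card
      ≥ Fintype.card K ^ 3 - 1 := by
  set q := Fintype.card K with hqdef
  have hq1 : 64 ≤ q := by nlinarith
  have hqR : (64 : ℝ) ≤ q := by exact_mod_cast hq1
  have hunits : (Fintype.card Kˣ : ℝ) = q - 1 := by
    rw [Fintype.card_units, Nat.cast_sub (by omega)]
    simp [hqdef]
  -- the sum over nonzero vectors
  set S : ℝ := ∑ u ∈ univ.filter (fun u : Fin 3 → K => u ≠ 0), ps l (P u) with hS
  have hS1 : ((q : ℝ) - 1) * S = ∑ u ∈ univ.filter (fun u : Fin 3 → K => u ≠ 0), TT l d (P u) := by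
    have e1 : ∀ c : Kˣ, ∑ u ∈ univ.filter (fun u : Fin 3 → K => u ≠ 0), ps l (P ((c : K) • u))
        = S := by
      intro c
      rw [hS]
      refine Finset.sum_bij' (fun u _ => (c : K) • u) (fun u _ => ((c⁻¹ : Kˣ) : K) • u) ?_ ?_ ?_ ?_ ?_
      · intro u hu
        simp only [Finset.mem_filter, Finset.mem_univ, true_and] at hu ⊢
        exact smul_ne_zero c.ne_zero hu
      · intro u hu
        simp only [Finset.mem_filter, Finset.mem_univ, true_and] at hu ⊢
        exact smul_ne_zero (c⁻¹).ne_zero hu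
      · intro u _
        rw [smul_smul, Units.inv_mul, one_smul]
      · intro u _
        rw [smul_smul, Units.mul_inv, one_smul]
      · intro u _; rfl
    have e2 : ∑ c : Kˣ, ∑ u ∈ univ.filter (fun u : Fin 3 → K => u ≠ 0), ps l (P ((c : K) • u))
        = ((q : ℝ) - 1) * S := by
      rw [Finset.sum_congr rfl fun c _ => e1 c, Finset.sum_const, Finset.card_univ,
        nsmul_eq_mul, hunits]
    rw [← e2, Finset.sum_comm]
    refine Finset.sum_congr rfl fun u _ => ?_
    unfold TT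
    refine Finset.sum_congr rfl fun c _ => ?_
    rw [hP, mul_comm]
  have hT0 : TT l d (0 : K) = q - 1 := by
    unfold TT
    simp only [zero_mul, ps_zero]
    rw [Finset.sum_const, Finset.card_univ, nsmul_eq_mul, hunits, mul_one]
  have hTb : ∀ a : K, a ≠ 0 → TT l d a ≤ q / 8 := by
    intro a ha
    have h1 := TT_bound l hl d hd a ha
    have h2 : (64 : ℝ) * d ^ 2 ≤ q := by exact_mod_cast hq
    have h3 : TT l d a ^ 2 ≤ ((q : ℝ) / 8) ^ 2 := by
      have : (0 : ℝ) ≤ q := by positivity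
      nlinarith
    exact (abs_le_of_sq_le_sq' h3 (by positivity)).2
  have hS2 : ((q : ℝ) - 1) * S ≤ (q - 1) * (d * q ^ 2) + q / 8 * q ^ 3 := by
    rw [hS1]
    have e3 : ∀ u : Fin 3 → K, TT l d (P u) ≤ (if P u = 0 then ((q : ℝ) - 1) else 0) + q / 8 := by
      intro u
      have : (0 : ℝ) ≤ q := by positivity
      split_ifs with h
      · rw [h, hT0]; linarith
      · rw [zero_add]; exact hTb _ h
    calc ∑ u ∈ univ.filter (fun u : Fin 3 → K => u ≠ 0), TT l d (P u)
        ≤ ∑ u ∈ univ.filter (fun u : Fin 3 → K => u ≠ 0),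
            ((if P u = 0 then ((q : ℝ) - 1) else 0) + q / 8) :=
          Finset.sum_le_sum fun u _ => e3 u
      _ ≤ ∑ u : Fin 3 → K, ((if P u = 0 then ((q : ℝ) - 1) else 0) + q / 8) := by
          apply Finset.sum_le_sum_of_subset_of_nonneg (Finset.filter_subset _ _)
          intro u _ _
          split_ifs <;> nlinarith
      _ = ((univ.filter fun u : Fin 3 → K => P u = 0).card : ℝ) * (q - 1)
            + (q : ℝ) ^ 3 * (q / 8) := by
          rw [Finset.sum_add_distrib, ← Finset.sum_filter, Finset.sum_const, Finset.sum_const,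
            nsmul_eq_mul, nsmul_eq_mul, Finset.card_univ, Fintype.card_pi]
          simp [hqdef]
      _ ≤ _ := by
          have h5 : ((univ.filter fun u : Fin 3 → K => P u = 0).card : ℝ) ≤ d * q ^ 2 := by
            exact_mod_cast hZ
          nlinarith
  have hSb : 2 * S ≤ (q : ℝ) ^ 3 - 1 := by
    have hd8 : (8 : ℝ) * d ≤ q := by
      have h2 : (64 : ℝ) * d ^ 2 ≤ q := by exact_mod_cast hq
      have h3 : (1 : ℝ) ≤ d := by exact_mod_cast hd
      nlinarith
    have hd64 : (64 : ℝ) * d ≤ q := by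
      have h2 : (64 : ℝ) * d ^ 2 ≤ q := by exact_mod_cast hq
      have h3 : (1 : ℝ) ≤ d := by exact_mod_cast hd
      nlinarith
    have hq0 : (0 : ℝ) < q - 1 := by linarith
    by_contra hcon
    push Not at hcon
    have h6 : ((q : ℝ) - 1) * ((q : ℝ) ^ 3 - 1) < 2 * ((q - 1) * (d * q ^ 2) + q / 8 * q ^ 3) := by
      have := mul_lt_mul_of_pos_left hcon hq0
      linarith
    have hq2 : (0 : ℝ) ≤ (q : ℝ) ^ 2 := by positivity
    have h7 : (d : ℝ) * q ^ 2 ≤ q ^ 3 / 64 := by nlinarith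
    have h8 : ((q : ℝ) - 1) * (d * q ^ 2) ≤ (q - 1) * (q ^ 3 / 64) :=
      mul_le_mul_of_nonneg_left h7 hq0.le
    have h9 : (0 : ℝ) ≤ (q : ℝ) ^ 3 := by positivity
    nlinarith [mul_nonneg h9 (show (0 : ℝ) ≤ q - 64 by linarith)]
  -- counting
  have hcount : ((univ.filter fun u : Fin 3 → K => u ≠ 0).card : ℝ) = q ^ 3 - 1 := by
    have h1 : (univ.filter fun u : Fin 3 → K => u ≠ 0).card = q ^ 3 - 1 := by
      rw [Finset.filter_ne' univ (0 : Fin 3 → K), Finset.card_erase_of_mem (Finset.mem_univ _),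
        Finset.card_univ, Fintype.card_pi]
      simp [hqdef]
    rw [h1, Nat.cast_sub (Nat.one_le_pow _ _ (by omega))]
    push_cast; ring
  have hsplit : S = ((univ.filter fun u : Fin 3 → K => u ≠ 0).card : ℝ)
      - 2 * ((univ.filter fun u : Fin 3 → K => u ≠ 0 ∧ l (P u) ≠ 0).card : ℝ) := by
    rw [hS]
    have e4 : ∀ u : Fin 3 → K, ps l (P u) = 1 - 2 * (if l (P u) ≠ 0 then (1 : ℝ) else 0) := by
      intro u
      unfold ps
      by_cases h : l (P u) = 0
      · simp [h]
      · rw [sgn_ne h, if_pos h]; norm_num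
    rw [Finset.sum_congr rfl fun u _ => e4 u, Finset.sum_sub_distrib, Finset.sum_const,
      nsmul_eq_mul, mul_one, ← Finset.mul_sum, ← Finset.sum_filter, Finset.sum_const,
      nsmul_eq_mul, mul_one, Finset.filter_filter]
  have hfin : (q : ℝ) ^ 3 - 1
      ≤ 4 * ((univ.filter fun u : Fin 3 → K => u ≠ 0 ∧ l (P u) ≠ 0).card : ℝ) := by
    rw [hcount] at hsplit
    linarith
  have h10 : q ^ 3 ≤ 4 * (univ.filter fun u : Fin 3 → K => u ≠ 0 ∧ l (P u) ≠ 0).card + 1 := by
    have : (q : ℝ) ^ 3 ≤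
        4 * ((univ.filter fun u : Fin 3 → K => u ≠ 0 ∧ l (P u) ≠ 0).card : ℝ) + 1 := by
      linarith
    exact_mod_cast this
  omega

/-- first column of a matrix -/
def fcol (γ : Matrix.SpecialLinearGroup (Fin 3) K) : Fin 3 → K :=
  (γ : Matrix (Fin 3) (Fin 3) K).mulVec (Pi.single 0 1)

omit [Fintype K] [Algebra (ZMod 2) K] in
lemma fcol_apply (γ : Matrix.SpecialLinearGroup (Fin 3) K) (i : Fin 3) : fcol γ i = γ i 0 := by
  unfold fcol
  rw [Matrix.mulVec_single]
  simp

omit [Fintype K] [Algebra (ZMod 2) K] in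
lemma fcol_mul (γ δ : Matrix.SpecialLinearGroup (Fin 3) K) :
    fcol (γ * δ) = (γ : Matrix (Fin 3) (Fin 3) K).mulVec (fcol δ) := by
  unfold fcol
  rw [Matrix.mulVec_mulVec]
  rfl

omit [Fintype K] [Algebra (ZMod 2) K] in
lemma fcol_one : fcol (1 : Matrix.SpecialLinearGroup (Fin 3) K) = Pi.single 0 1 := by
  unfold fcol
  show (1 : Matrix (Fin 3) (Fin 3) K).mulVec _ = _
  rw [Matrix.one_mulVec]

omit [Fintype K] [Algebra (ZMod 2) K] in
lemma fcol_ne (γ : Matrix.SpecialLinearGroup (Fin 3) K) : fcol γ ≠ 0 := by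
  intro h
  have h1 := congrArg ((γ⁻¹ : Matrix.SpecialLinearGroup (Fin 3) K) :
    Matrix (Fin 3) (Fin 3) K).mulVec h
  rw [← fcol_mul, inv_mul_cancel, Matrix.mulVec_zero] at h1
  have h2 := congrFun h1 0
  rw [fcol_apply] at h2
  exact one_ne_zero h2

omit [Fintype K] [Algebra (ZMod 2) K] in
lemma exists_fcol (u : Fin 3 → K) (hu : u ≠ 0) :
    ∃ γ : Matrix.SpecialLinearGroup (Fin 3) K, fcol γ = u := by
  by_cases h0 : u 0 = 0
  · by_cases h1 : u 1 = 0
    · have h2 : u 2 ≠ 0 := by
        intro h2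
        apply hu
        funext i
        fin_cases i <;> simpa
      refine ⟨⟨!![u 0, 0, -(u 2)⁻¹; u 1, 1, 0; u 2, 0, 0], ?_⟩, ?_⟩
      · rw [Matrix.det_fin_three]
        simp
        field_simp
      · funext i
        refine (fcol_apply _ i).trans ?_
        fin_cases i <;> rfl
    · refine ⟨⟨!![u 0, -(u 1)⁻¹, 0; u 1, 0, 0; u 2, 0, 1], ?_⟩, ?_⟩
      · rw [Matrix.det_fin_three]
        simp
        field_simp
      · funext i
        refine (fcol_apply _ i).trans ?_
        fin_cases i <;> rfl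
  · refine ⟨⟨!![u 0, 0, 0; u 1, (u 0)⁻¹, 0; u 2, 0, 1], ?_⟩, ?_⟩
    · rw [Matrix.det_fin_three]
      simp
      field_simp
    · funext i
      refine (fcol_apply _ i).trans ?_
      fin_cases i <;> rfl

open Classical in
omit [Algebra (ZMod 2) K] in
lemma card_fcol (u : Fin 3 → K) (hu : u ≠ 0) :
    (univ.filter fun γ : Matrix.SpecialLinearGroup (Fin 3) K => fcol γ = u).card
      = (univ.filter fun γ : Matrix.SpecialLinearGroup (Fin 3) K =>
          fcol γ = Pi.single 0 1).card := by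
  obtain ⟨δ, hδ⟩ := exists_fcol u hu
  symm
  refine Finset.card_bij (fun γ _ => δ * γ) ?_ ?_ ?_
  · intro γ hγ
    simp only [Finset.mem_filter, Finset.mem_univ, true_and] at hγ ⊢
    rw [fcol_mul, hγ, ← hδ]
    rfl
  · intro a _ b _ h
    exact mul_left_cancel h
  · intro γ hγ
    simp only [Finset.mem_filter, Finset.mem_univ, true_and] at hγ
    refine ⟨δ⁻¹ * γ, ?_, by rw [mul_inv_cancel_left]⟩
    simp only [Finset.mem_filter, Finset.mem_univ, true_and]
    rw [fcol_mul, hγ, ← hδ]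
    show (_ : Matrix (Fin 3) (Fin 3) K).mulVec (fcol δ) = _
    rw [← fcol_mul, inv_mul_cancel]
    exact fcol_one

open Classical in
/-- **Bias on the orbit**: homogeneous functions with few zeros -/
theorem bias_hom (l : K →ₗ[ZMod 2] ZMod 2) (hl : l ≠ 0) (d : ℕ) (hd : 1 ≤ d)
    (hq : 64 * d ^ 2 ≤ Fintype.card K) (P : (Fin 3 → K) → K)
    (hP : ∀ (c : K) u, P (c • u) = c ^ d * P u)
    (hZ : (univ.filter fun u : Fin 3 → K => P u = 0).card ≤ d * Fintype.card K ^ 2) :
    Nat.card (Matrix.SpecialLinearGroup (Fin 3) K)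
      ≤ 4 * Nat.card {γ : Matrix.SpecialLinearGroup (Fin 3) K // l (P (fcol γ)) ≠ 0} := by
  have h1 := sum_hom l hl d hd hq P hP hZ
  set N := (univ.filter fun γ : Matrix.SpecialLinearGroup (Fin 3) K =>
          fcol γ = Pi.single 0 1).card with hN
  have hfib : ∀ B : Finset (Fin 3 → K), (∀ u ∈ B, u ≠ 0) →
      (univ.filter fun γ : Matrix.SpecialLinearGroup (Fin 3) K => fcol γ ∈ B).card
        = N * B.card := by
    intro B hB
    have e := Finset.card_eq_sum_card_fiberwise
      (s := univ.filter fun γ : Matrix.SpecialLinearGroup (Fin 3) K => fcol γ ∈ B)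
      (t := B) (f := fcol) (by
        intro γ hγ
        simpa using hγ)
    rw [e, Finset.sum_congr rfl (g := fun _ => N), Finset.sum_const, smul_eq_mul, mul_comm]
    intro u hu
    rw [hN, ← card_fcol u (hB u hu), Finset.filter_filter]
    congr 1
    ext γ
    simp only [Finset.mem_filter, Finset.mem_univ, true_and]
    constructor
    · rintro ⟨_, h⟩; exact h
    · intro h; exact ⟨h ▸ hu, h⟩
  have h2 := hfib (univ.filter fun u : Fin 3 → K => u ≠ 0) (by simp)
  have h3 := hfib (univ.filter fun u : Fin 3 → K => u ≠ 0 ∧ l (P u) ≠ 0) (by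
    intro u hu
    simp only [Finset.mem_filter, Finset.mem_univ, true_and] at hu
    exact hu.1)
  have h4 : (univ.filter fun u : Fin 3 → K => u ≠ 0).card = Fintype.card K ^ 3 - 1 := by
    rw [Finset.filter_ne' univ (0 : Fin 3 → K), Finset.card_erase_of_mem (Finset.mem_univ _),
      Finset.card_univ, Fintype.card_pi]
    simp
  have h5 : Nat.card (Matrix.SpecialLinearGroup (Fin 3) K) = N * (Fintype.card K ^ 3 - 1) := by
    rw [← h4, ← h2, Nat.card_eq_fintype_card, ← Finset.card_univ]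
    congr 1
    ext γ
    simp [fcol_ne γ]
  have h6 : Nat.card {γ : Matrix.SpecialLinearGroup (Fin 3) K // l (P (fcol γ)) ≠ 0}
      = N * (univ.filter fun u : Fin 3 → K => u ≠ 0 ∧ l (P u) ≠ 0).card := by
    rw [← h3, Nat.card_eq_fintype_card, Fintype.card_subtype]
    congr 1
    ext γ
    simp [fcol_ne γ]
  rw [h5, h6]
  calc N * (Fintype.card K ^ 3 - 1)
      ≤ N * (4 * (univ.filter fun u : Fin 3 → K => u ≠ 0 ∧ l (P u) ≠ 0).card) :=
        Nat.mul_le_mul_left _ h1
    _ = _ := by ring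

omit [Fintype K] [Algebra (ZMod 2) K] in
lemma eval_hom {d : ℕ} (p : MvPolynomial (Fin 3) K) (hh : p.IsHomogeneous d) (c : K)
    (u : Fin 3 → K) : MvPolynomial.eval (c • u) p = c ^ d * MvPolynomial.eval u p := by
  rw [MvPolynomial.eval_eq, MvPolynomial.eval_eq, Finset.mul_sum]
  refine Finset.sum_congr rfl fun m hm => ?_
  have h1 : ∑ i, m i = d := by
    have := hh (MvPolynomial.mem_support_iff.1 hm)
    rw [← this, Finsupp.weight_apply, Finsupp.sum_fintype _ _ (by simp)]
    simp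
  have h2 : ∏ i ∈ m.support, (c • u) i ^ m i = c ^ d * ∏ i ∈ m.support, u i ^ m i := by
    have h3 : ∑ i ∈ m.support, m i = d := by
      rw [← h1]
      exact Finset.sum_subset (Finset.subset_univ _) (by simp)
    rw [← h3, ← Finset.prod_pow_eq_pow_sum, ← Finset.prod_mul_distrib]
    refine Finset.prod_congr rfl fun i _ => ?_
    rw [Pi.smul_apply, smul_eq_mul, mul_pow]
  rw [h2]
  ring

open Classical in
/-- **Bias on the orbit**: homogeneous polynomials in three variables -/
theorem bias_poly (l : K →ₗ[ZMod 2] ZMod 2) (hl : l ≠ 0) (d : ℕ) (hd : 1 ≤ d)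
    (hq : 64 * d ^ 2 ≤ Fintype.card K) (p : MvPolynomial (Fin 3) K) (hp : p ≠ 0)
    (hh : p.IsHomogeneous d) :
    Nat.card (Matrix.SpecialLinearGroup (Fin 3) K)
      ≤ 4 * Nat.card {γ : Matrix.SpecialLinearGroup (Fin 3) K //
          l (MvPolynomial.eval (fcol γ) p) ≠ 0} := by
  refine bias_hom l hl d hd hq (fun u => MvPolynomial.eval u p) ?_ ?_
  · intro c u
    exact eval_hom p hh c u
  · have h1 := MvPolynomial.schwartz_zippel_totalDegree hp (univ : Finset K)
    have h2 : p.totalDegree = d := hh.totalDegree hp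
    have hq0 : 0 < Fintype.card K := Fintype.card_pos
    rw [h2, Finset.card_univ] at h1
    have h3 : (univ.filter fun u : Fin 3 → K => MvPolynomial.eval u p = 0)
        = (Fintype.piFinset fun _ : Fin 3 => (univ : Finset K)).filter
            fun f => MvPolynomial.eval f p = 0 := by
      ext u; simp
    rw [h3]
    rw [div_le_div_iff₀ (by positivity) (by positivity)] at h1
    have h4 : ((Fintype.piFinset fun _ : Fin 3 => (univ : Finset K)).filter
            fun f => MvPolynomial.eval f p = 0).card * Fintype.card K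
        ≤ d * Fintype.card K ^ 3 := by exact_mod_cast h1
    have h5 : d * Fintype.card K ^ 3 = (d * Fintype.card K ^ 2) * Fintype.card K := by ring
    rw [h5] at h4
    exact Nat.le_of_mul_le_mul_right h4 hq0

end Vale.Agent.P330.H143
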