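import Vale.Agent.P330.H143.Walk

/-!
# Spectral radius of words on the Cayley graphs of `J ⋊ SL₃(K)` (P330, block EXP, final form)
-/

set_option linter.all false

namespace Vale.Agent.P330.H143

open Finset Module Matrix

section reg

variable {G : Type*} [Group G] [Fintype G]

lemma cl_apply (e : G ≃ G) (f : EuclideanSpace ℝ G) (g : G) :
    (LinearIsometryEquiv.piLpCongrLeft 2 ℝ ℝ e f).ofLp g = f.ofLp (e.symm g) := rfl

/-- right regular representation -/
noncomputable def rreg : G →* (EuclideanSpace ℝ G ≃ₗᵢ[ℝ] EuclideanSpace ℝ G) where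
  toFun s := LinearIsometryEquiv.piLpCongrLeft 2 ℝ ℝ (Equiv.mulRight s⁻¹)
  map_one' := by
    ext f g
    rw [cl_apply]
    show f.ofLp (g * (1 : G)⁻¹⁻¹) = f.ofLp g
    rw [inv_one, inv_one, mul_one]
  map_mul' s t := by
    ext f g
    rw [cl_apply]
    show f.ofLp (g * (s * t)⁻¹⁻¹) = f.ofLp (g * s⁻¹⁻¹ * t⁻¹⁻¹)
    rw [inv_inv, inv_inv, inv_inv, mul_assoc]

lemma rreg_apply (s : G) (f : EuclideanSpace ℝ G) (g : G) :
    (rreg s f).ofLp g = f.ofLp (g * s) := by
  show (LinearIsometryEquiv.piLpCongrLeft 2 ℝ ℝ (Equiv.mulRight s⁻¹) f).ofLp g = _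
  rw [cl_apply]
  show f.ofLp (g * s⁻¹⁻¹) = _
  rw [inv_inv]

/-- left regular representation -/
noncomputable def lreg : G →* (EuclideanSpace ℝ G ≃ₗᵢ[ℝ] EuclideanSpace ℝ G) where
  toFun s := LinearIsometryEquiv.piLpCongrLeft 2 ℝ ℝ (Equiv.mulLeft s)
  map_one' := by
    ext f g
    rw [cl_apply]
    show f.ofLp ((1 : G)⁻¹ * g) = f.ofLp g
    rw [inv_one, one_mul]
  map_mul' s t := by
    ext f g
    rw [cl_apply]
    show f.ofLp ((s * t)⁻¹ * g) = f.ofLp (t⁻¹ * (s⁻¹ * g))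
    rw [_root_.mul_inv_rev, mul_assoc]

lemma lreg_apply (s : G) (f : EuclideanSpace ℝ G) (g : G) :
    (lreg s f).ofLp g = f.ofLp (s⁻¹ * g) := by
  show (LinearIsometryEquiv.piLpCongrLeft 2 ℝ ℝ (Equiv.mulLeft s) f).ofLp g = _
  rw [cl_apply]
  rfl

lemma sum_ofLp {ι : Type*} (s : Finset ι) (F : ι → EuclideanSpace ℝ G) (g : G) :
    (∑ i ∈ s, F i).ofLp g = ∑ i ∈ s, (F i).ofLp g := by
  induction s using Finset.cons_induction with
  | empty => simp
  | cons a s ha ih => rw [Finset.sum_cons, Finset.sum_cons, ← ih]; rfl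

lemma rreg_mean (f : EuclideanSpace ℝ G) (h : ∑ g, f.ofLp g = 0) : ∑ s : G, rreg s f = 0 := by
  ext g
  rw [sum_ofLp]
  simp only [rreg_apply]
  refine Eq.trans ?_ h
  exact Equiv.sum_comp (Equiv.mulLeft g) fun x => f.ofLp x

lemma lreg_mean (f : EuclideanSpace ℝ G) (h : ∑ g, f.ofLp g = 0) : ∑ s : G, lreg s f = 0 := by
  ext g
  rw [sum_ofLp]
  simp only [lreg_apply]
  refine Eq.trans ?_ h
  exact Equiv.sum_comp ((Equiv.inv G).trans (Equiv.mulRight g)) fun x => f.ofLp x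

end reg

variable {K : Type*} [Field K] [Fintype K] [Algebra (ZMod 2) K]
variable {J : Type*} [AddCommGroup J] [Module (ZMod 2) J] [Fintype J]
variable {G : Type*} [Group G] [Fintype G]
variable {L : Type*} [Fintype L] {n : ℕ}

lemma norm_sq_eq (f : EuclideanSpace ℝ G) : ‖f‖ ^ 2 = ∑ g, f.ofLp g ^ 2 := by
  rw [EuclideanSpace.norm_eq, Real.sq_sqrt (Finset.sum_nonneg fun _ _ => sq_nonneg _)]
  simp

lemma loss_pow (n m t : ℕ) (lam : ℝ) (hm : 0 < m) (ht : loss n m ^ t ≤ lam ^ 2) :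
    ((2 * (m : ℝ)) ^ 2 * loss n m) ^ t ≤ (lam * (2 * m) ^ t) ^ 2 := by
  have h1 := mul_le_mul_of_nonneg_left ht (show (0:ℝ) ≤ ((2 * (m:ℝ)) ^ t) ^ 2 by positivity)
  calc ((2 * (m : ℝ)) ^ 2 * loss n m) ^ t = ((2 * (m:ℝ)) ^ t) ^ 2 * loss n m ^ t := by
        rw [mul_pow, ← pow_mul, ← pow_mul, mul_comm 2 t]
    _ ≤ ((2 * (m:ℝ)) ^ t) ^ 2 * lam ^ 2 := h1
    _ = _ := by ring

/-- the length of the words for a given spectral bound -/
theorem exists_len (n m : ℕ) (hm : 0 < m) {lam : ℝ} (hl : 0 < lam) :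
    ∃ t : ℕ, loss n m ^ t ≤ lam ^ 2 := by
  obtain ⟨t, ht⟩ := exists_pow_lt_of_lt_one (show (0 : ℝ) < lam ^ 2 by positivity)
    (loss_lt n m hm)
  exact ⟨t, ht.le⟩

theorem L_pos (E : EData K J G L n) : 0 < Fintype.card L := by
  obtain ⟨l, -⟩ := E.cov1 0 1 (by decide)
  exact Fintype.card_pos_iff.2 ⟨l⟩

/-- **right multiplication by words**, mean zero functions -/
theorem exp_right (E : EData K J G L n) (t : ℕ) {lam : ℝ}
    (ht : loss n (Fintype.card L) ^ t ≤ lam ^ 2) (f : G → ℝ) (hf : ∑ g, f g = 0) :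
    ∑ g, (∑ w : Fin t → L × Bool, f (g * wprod E.letter t w)) ^ 2
      ≤ (lam * (2 * Fintype.card L) ^ t) ^ 2 * ∑ g, f g ^ 2 := by
  have h1 := words_norm E rreg (WithLp.toLp 2 f) (rreg_mean _ hf) t
  rw [norm_sq_eq, norm_sq_eq] at h1
  have h2 : ∀ g, (wsum E.letter t (fun x => rreg x (WithLp.toLp 2 f))).ofLp g
      = ∑ w : Fin t → L × Bool, f (g * wprod E.letter t w) := by
    intro g
    rw [wsum, sum_ofLp]
    simp only [rreg_apply]
  simp only [h2] at h1
  refine h1.trans ?_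
  exact mul_le_mul_of_nonneg_right (loss_pow n _ t lam (L_pos E) ht)
    (Finset.sum_nonneg fun _ _ => sq_nonneg _)

/-- **left multiplication by words**, mean zero functions -/
theorem exp_left (E : EData K J G L n) (t : ℕ) {lam : ℝ}
    (ht : loss n (Fintype.card L) ^ t ≤ lam ^ 2) (f : G → ℝ) (hf : ∑ g, f g = 0) :
    ∑ g, (∑ w : Fin t → L × Bool, f (wprod E.letter t w * g)) ^ 2
      ≤ (lam * (2 * Fintype.card L) ^ t) ^ 2 * ∑ g, f g ^ 2 := by
  have h1 := words_norm E lreg (WithLp.toLp 2 f) (lreg_mean _ hf) t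
  rw [norm_sq_eq, norm_sq_eq] at h1
  have h2 : ∀ g, (wsum E.letter t (fun x => lreg x (WithLp.toLp 2 f))).ofLp g
      = ∑ w : Fin t → L × Bool, f (wprod E.letter t w * g) := by
    intro g
    have h3 := wsum_inv E.letter E.hinv t (fun x => f (x * g))
    unfold wsum at h3
    rw [← h3, wsum, sum_ofLp]
    simp only [lreg_apply]
  simp only [h2] at h1
  refine h1.trans ?_
  exact mul_le_mul_of_nonneg_right (loss_pow n _ t lam (L_pos E) ht)
    (Finset.sum_nonneg fun _ _ => sq_nonneg _)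

/-- base fact (one letter), left multiplication: input of the word construction of helper972 -/
theorem base_left (E : EData K J G L n) (f : G → ℝ) (hf : ∑ g, f g = 0) :
    ∑ g, (∑ p : L × Bool, f (lz E.letter p * g)) ^ 2
      ≤ (2 * Fintype.card L * √(loss n (Fintype.card L))) ^ 2 * ∑ g, f g ^ 2 := by
  have h1 := step_norm E lreg (WithLp.toLp 2 f) (lreg_mean _ hf)
  rw [norm_sq_eq, norm_sq_eq] at h1
  have h2 : ∀ g, (∑ p : L × Bool, lreg (lz E.letter p) (WithLp.toLp 2 f)).ofLp g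
      = ∑ p : L × Bool, f (lz E.letter p * g) := by
    intro g
    rw [sum_ofLp]
    refine Finset.sum_congr rfl fun p _ => ?_
    rw [lreg_apply]
    have h : (lz E.letter p)⁻¹ = lz E.letter p := by
      unfold lz
      split_ifs
      · exact inv_eq_of_mul_eq_one_left (E.hinv _)
      · exact inv_one
    rw [h]
  simp only [h2] at h1
  refine h1.trans (le_of_eq ?_)
  rw [mul_pow _ (√_), Real.sq_sqrt (loss_nonneg _ _ (L_pos E))]

/-- base fact (one letter), right multiplication -/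
theorem base_right (E : EData K J G L n) (f : G → ℝ) (hf : ∑ g, f g = 0) :
    ∑ g, (∑ p : L × Bool, f (g * lz E.letter p)) ^ 2
      ≤ (2 * Fintype.card L * √(loss n (Fintype.card L))) ^ 2 * ∑ g, f g ^ 2 := by
  have h1 := step_norm E rreg (WithLp.toLp 2 f) (rreg_mean _ hf)
  rw [norm_sq_eq, norm_sq_eq] at h1
  have h2 : ∀ g, (∑ p : L × Bool, rreg (lz E.letter p) (WithLp.toLp 2 f)).ofLp g
      = ∑ p : L × Bool, f (g * lz E.letter p) := by
    intro g
    rw [sum_ofLp]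
    refine Finset.sum_congr rfl fun p _ => ?_
    rw [rreg_apply]
  simp only [h2] at h1
  refine h1.trans (le_of_eq ?_)
  rw [mul_pow _ (√_), Real.sq_sqrt (loss_nonneg _ _ (L_pos E))]

/-- the base bound is a nontrivial one -/
theorem base_lt (n m : ℕ) (hm : 0 < m) :
    0 ≤ 2 * (m : ℝ) * √(loss n m) ∧ 2 * (m : ℝ) * √(loss n m) < 2 * m := by
  have hm' : (0 : ℝ) < m := by exact_mod_cast hm
  refine ⟨by positivity, ?_⟩
  have h1 : √(loss n m) < 1 := by
    rw [Real.sqrt_lt' one_pos, one_pow]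
    exact loss_lt n m hm
  nlinarith

/-- inverse words give the same sums -/
theorem words_inv (E : EData K J G L n) (t : ℕ) {M : Type*} [AddCommMonoid M] (F : G → M) :
    ∑ w : Fin t → L × Bool, F (wprod E.letter t w)⁻¹
      = ∑ w : Fin t → L × Bool, F (wprod E.letter t w) :=
  wsum_inv E.letter E.hinv t F

/-- from mean zero functions to all functions -/
theorem all_of_mean {A : Type*} [Fintype A] (T : A → Equiv.Perm G) {c : ℝ}
    (h : ∀ f : G → ℝ, ∑ g, f g = 0 → ∑ g, (∑ a, f (T a g)) ^ 2 ≤ c * ∑ g, f g ^ 2)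
    (hc : 0 ≤ c) (f : G → ℝ) :
    ∑ g, (∑ a, f (T a g)) ^ 2
      ≤ c * ∑ g, f g ^ 2 + (Fintype.card A) ^ 2 * (∑ g, f g) ^ 2 / Fintype.card G := by
  have hG : (0 : ℝ) < Fintype.card G := by
    have : 0 < Fintype.card G := Fintype.card_pos
    exact_mod_cast this
  set m : ℝ := (∑ g, f g) / Fintype.card G with hm
  have hmean : ∑ g, (f g - m) = 0 := by
    rw [Finset.sum_sub_distrib, Finset.sum_const, Finset.card_univ, nsmul_eq_mul, hm]
    field_simp
    ring
  have h1 := h (fun g => f g - m) hmean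
  have e1 : ∀ g, ∑ a, f (T a g) = ∑ a, (f (T a g) - m) + Fintype.card A * m := by
    intro g
    rw [Finset.sum_sub_distrib, Finset.sum_const, Finset.card_univ, nsmul_eq_mul]
    ring
  have e2 : ∑ g, ∑ a, (f (T a g) - m) = 0 := by
    rw [Finset.sum_comm]
    refine Finset.sum_eq_zero fun a _ => ?_
    rw [← hmean]
    exact Equiv.sum_comp (T a) fun g => f g - m
  have e3 : ∑ g, (f g - m) ^ 2 ≤ ∑ g, f g ^ 2 := by
    have : ∑ g, (f g - m) ^ 2 = ∑ g, f g ^ 2 - Fintype.card G * m ^ 2 := by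
      have e4 : ∀ g, (f g - m) ^ 2 = f g ^ 2 - 2 * m * (f g - m) - m ^ 2 := by intro g; ring
      simp only [e4]
      rw [Finset.sum_sub_distrib, Finset.sum_sub_distrib, ← Finset.mul_sum, hmean,
        Finset.sum_const, Finset.card_univ, nsmul_eq_mul]
      ring
    rw [this]
    have : 0 ≤ (Fintype.card G : ℝ) * m ^ 2 := by positivity
    linarith
  have e5 : ∑ g, (∑ a, f (T a g)) ^ 2
      = ∑ g, (∑ a, (f (T a g) - m)) ^ 2 + Fintype.card G * (Fintype.card A * m) ^ 2 := by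
    simp only [e1]
    have e6 : ∀ g, (∑ a, (f (T a g) - m) + Fintype.card A * m) ^ 2
        = (∑ a, (f (T a g) - m)) ^ 2 + 2 * (Fintype.card A * m) * ∑ a, (f (T a g) - m)
          + (Fintype.card A * m) ^ 2 := by intro g; ring
    simp only [e6]
    rw [Finset.sum_add_distrib, Finset.sum_add_distrib, ← Finset.mul_sum, e2,
      Finset.sum_const, Finset.card_univ, nsmul_eq_mul]
    ring
  rw [e5]
  have e7 : (Fintype.card G : ℝ) * (Fintype.card A * m) ^ 2
      = (Fintype.card A) ^ 2 * (∑ g, f g) ^ 2 / Fintype.card G := by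
    rw [hm]; field_simp
  rw [e7]
  have := mul_le_mul_of_nonneg_left e3 hc
  linarith

end Vale.Agent.P330.H143
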