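import Vale.Agent.P330.H143.Exp
import Vale.Agent.P330.H143.Bias
import Vale.Agent.P330.H155.Alg
import Vale.Agent.P330.H675.JDef
import Vale.Agent.P330.W.H972.Match

/-!
# The site group `J ⋊ SL₃(K)` as an expander: concrete instance (P330, block EXP)
-/

set_option linter.all false

namespace Vale.Agent.P330.H143

open Finset Module
open Vale.Agent.P330.W.H709 Vale.Agent.P330.W.H972

section group

variable (J Γ : Type*) [AddCommGroup J] [Group Γ] [DistribMulAction Γ J]

/-- the sites with the group law of `J ⋊ Γ` -/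
def OG (J Γ : Type*) : Type _ := J × Γ

instance : Group (OG J Γ) where
  mul a b := (a.1 + a.2 • b.1, a.2 * b.2)
  one := (0, 1)
  inv a := (-(a.2⁻¹ • a.1), a.2⁻¹)
  mul_assoc a b c := by
    show ((a.1 + a.2 • b.1) + (a.2 * b.2) • c.1, a.2 * b.2 * c.2)
      = (a.1 + a.2 • (b.1 + b.2 • c.1), a.2 * (b.2 * c.2))
    rw [smul_add, mul_smul, mul_assoc, add_assoc]
  one_mul a := by
    show ((0 : J) + (1 : Γ) • a.1, (1 : Γ) * a.2) = a
    rw [one_smul, zero_add, one_mul]
    rfl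
  mul_one a := by
    show (a.1 + a.2 • (0 : J), a.2 * (1 : Γ)) = a
    rw [smul_zero, add_zero, mul_one]
    rfl
  inv_mul_cancel a := by
    show (-(a.2⁻¹ • a.1) + a.2⁻¹ • a.1, a.2⁻¹ * a.2) = ((0 : J), (1 : Γ))
    rw [neg_add_cancel, inv_mul_cancel]

instance [Fintype J] [Fintype Γ] : Fintype (OG J Γ) := inferInstanceAs (Fintype (J × Γ))

variable {J Γ}

theorem og_mul (a b : OG J Γ) : a * b = (a.1 + a.2 • b.1, a.2 * b.2) := rfl

theorem og_lt (a g : OG J Γ) : a * g = H155.lt a.1 a.2 g := rfl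

theorem og_one : (1 : OG J Γ) = ((0 : J), (1 : Γ)) := rfl

/-- the embedding of `J` -/
def inJ : Multiplicative J →* OG J Γ where
  toFun x := (x.toAdd, 1)
  map_one' := rfl
  map_mul' x y := by
    show (x.toAdd + y.toAdd, (1 : Γ)) = (x.toAdd + (1 : Γ) • y.toAdd, (1 : Γ) * 1)
    rw [one_smul, one_mul]

/-- the embedding of `Γ` -/
def inG : Γ →* OG J Γ where
  toFun v := (0, v)
  map_one' := rfl
  map_mul' x y := by
    show ((0 : J), x * y) = ((0 : J) + x • (0 : J), x * y)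
    rw [smul_zero, add_zero]

end group

variable {K : Type} [Field K] [Fintype K] [CharP K 2]

open H675 in
/-- the elementary matrices as a table: positions -/
def tab (p : Fin 6) : Fin 3 × Fin 3 :=
  ![(0, 1), (0, 2), (1, 0), (1, 2), (2, 0), (2, 1)] p

theorem tab_ne (p : Fin 6) : (tab p).1 ≠ (tab p).2 := by
  revert p; decide

theorem tab_surj (i j : Fin 3) (h : i ≠ j) : ∃ p, tab p = (i, j) := by
  revert i j; decide

/-- the 20 generators of `J ⋊ SL₃(K)` -/
noncomputable def gens (θ : K) (d : Fin 8 → ℕ) (p : Fin 20) :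
    OG (H675.JJ K d) (Matrix.SpecialLinearGroup (Fin 3) K) :=
  if h : p.1 < 6 then inG (tv (tab_ne ⟨p.1, h⟩) 1)
  else if h2 : p.1 < 12 then inG (tv (tab_ne ⟨p.1 - 6, by omega⟩) θ)
  else inJ (Multiplicative.ofAdd (H675.gen K d ⟨p.1 - 12, by omega⟩))

theorem gens_1 (θ : K) (d : Fin 8 → ℕ) (p : Fin 6) :
    gens θ d ⟨p.1, by omega⟩ = inG (tv (tab_ne p) 1) := by
  unfold gens
  rw [dif_pos p.2]

theorem gens_2 (θ : K) (d : Fin 8 → ℕ) (p : Fin 6) :
    gens θ d ⟨p.1 + 6, by omega⟩ = inG (tv (tab_ne p) θ) := by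
  unfold gens
  rw [dif_neg (by simp), dif_pos (by simp; omega)]

theorem gens_3 (θ : K) (d : Fin 8 → ℕ) (i : Fin 8) :
    gens θ d ⟨i.1 + 12, by omega⟩ = inJ (Multiplicative.ofAdd (H675.gen K d i)) := by
  unfold gens
  rw [dif_neg (by simp), dif_neg (by simp)]
  rfl

/-- the 40 letters: the 20 generators and 20 copies of the identity -/
noncomputable def alpha0 (θ : K) (d : Fin 8 → ℕ) (p : Fin 40) :
    OG (H675.JJ K d) (Matrix.SpecialLinearGroup (Fin 3) K) :=
  if h : p.1 < 20 then gens θ d ⟨p.1, h⟩ else 1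

/-- the absolute contraction constant of the letters -/
noncomputable def rho0 : ℝ := √(loss 8 20)

theorem rho0_nonneg : 0 ≤ rho0 := Real.sqrt_nonneg _

theorem rho0_lt : rho0 < 1 := by
  have := base_lt 8 20 (by norm_num)
  unfold rho0
  nlinarith [this.2]

section inst

variable [Algebra (ZMod 2) K]

instance instModJJ (d : Fin 8 → ℕ) : Module (ZMod 2) (H675.JJ K d) :=
  inferInstanceAs (Module (ZMod 2) (∀ i, H675.Mon (d i) → K))

theorem exists_functional : ∃ l : K →ₗ[ZMod 2] ZMod 2, l ≠ 0 := by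
  obtain ⟨χ, hχ⟩ := exists_dual_ne (V := K) (w := 1) one_ne_zero
  exact ⟨χ, fun h => hχ (by rw [h]; rfl)⟩

/-- the instance of the expander data -/
noncomputable def edata (θ : K)
    (hθ : Submodule.span (ZMod 2) (Set.range fun i : ℕ => θ ^ i) = ⊤)
    (d : Fin 8 → ℕ) (hd : ∀ i, 1 ≤ d i) (hq : ∀ i, 64 * d i ^ 2 ≤ Fintype.card K) :
    EData K (H675.JJ K d) (OG (H675.JJ K d) (Matrix.SpecialLinearGroup (Fin 3) K)) (Fin 20) 8 where
  θ := θ
  hθ := hθ
  ι := inJ
  κ := inG
  act γ x := γ • x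
  hact γ x := by
    show ((0 : H675.JJ K d) + γ • x, γ * 1) =
      ((γ • x) + (1 : Matrix.SpecialLinearGroup (Fin 3) K) • (0 : H675.JJ K d), 1 * γ)
    rw [zero_add, smul_zero, add_zero, mul_one, one_mul]
  hgen g := by
    refine ⟨g.1, g.2, ?_⟩
    show g = (g.1 + (1 : Matrix.SpecialLinearGroup (Fin 3) K) • (0 : H675.JJ K d), 1 * g.2)
    rw [smul_zero, add_zero, one_mul]
    rfl
  s i := H675.gen K d i
  hbias ψ hψ := by
    obtain ⟨l, hl⟩ := exists_functional (K := K)
    obtain ⟨i, P, hP, hP0, hu⟩ := H675.exists_poly_ne (d := d) (l : K →+ ZMod 2)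
      (by
        intro h
        apply hl
        ext x
        exact DFunLike.congr_fun h x)
      (ψ : H675.JJ K d →+ ZMod 2)
      (by
        intro h
        apply hψ
        ext x
        exact DFunLike.congr_fun h x)
    refine ⟨i, ?_⟩
    have h1 := bias_poly l hl (d i) (hd i) (hq i) P hP0 hP
    have h2 : ∀ γ : Matrix.SpecialLinearGroup (Fin 3) K,
        ψ (γ • H675.gen K d i) = l (MvPolynomial.eval (fcol γ) P) := by
      intro γ
      rw [H675.smul_gen]
      have h3 := hu (fun j => γ.1 j 0)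
      have h4 : fcol γ = fun j => γ.1 j 0 := by
        funext j
        exact fcol_apply γ j
      rw [h4]
      exact h3
    simp only [h2]
    exact h1
  letter := gens θ d
  hinv p := by
    have key : (∃ q : Fin 6, p = ⟨q.1, by omega⟩) ∨ (∃ q : Fin 6, p = ⟨q.1 + 6, by omega⟩) ∨
        (∃ q : Fin 8, p = ⟨q.1 + 12, by omega⟩) := by
      rcases lt_or_ge p.1 6 with h | h
      · exact Or.inl ⟨⟨p.1, h⟩, rfl⟩
      · rcases lt_or_ge p.1 12 with h2 | h2
        · refine Or.inr (Or.inl ⟨⟨p.1 - 6, by omega⟩, ?_⟩)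
          apply Fin.ext; simp; omega
        · refine Or.inr (Or.inr ⟨⟨p.1 - 12, by omega⟩, ?_⟩)
          apply Fin.ext; simp; omega
    rcases key with ⟨q, rfl⟩ | ⟨q, rfl⟩ | ⟨q, rfl⟩
    · rw [gens_1, ← map_mul, ← tv_add, ch2, tv_zero, map_one]
    · rw [gens_2, ← map_mul, ← tv_add, ch2, tv_zero, map_one]
    · rw [gens_3, ← map_mul, ← ofAdd_add, H675.JJ.add_self, ofAdd_zero, map_one]
  cov1 i j h := by
    obtain ⟨p, hp⟩ := tab_surj i j h
    refine ⟨⟨p.1, by omega⟩, ?_⟩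
    rw [gens_1]
    have : ∀ (q : Fin 3 × Fin 3) (hq : q.1 ≠ q.2), q = (i, j) →
        tv hq (1 : K) = tv h 1 := by
      rintro q hq rfl; rfl
    rw [this _ (tab_ne p) hp]
  cov2 i j h := by
    obtain ⟨p, hp⟩ := tab_surj i j h
    refine ⟨⟨p.1 + 6, by omega⟩, ?_⟩
    rw [gens_2]
    have : ∀ (q : Fin 3 × Fin 3) (hq : q.1 ≠ q.2), q = (i, j) →
        tv hq θ = tv h θ := by
      rintro q hq rfl; rfl
    rw [this _ (tab_ne p) hp]
  cov3 i := ⟨⟨i.1 + 12, by omega⟩, gens_3 θ d i⟩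

end inst

/-- **The letters expand** (absolute constant `rho0 < 1`, left multiplications). -/
theorem expP_alpha0 (θ : K) (hθ : AddSubgroup.closure (Set.range fun i : ℕ => θ ^ i) = ⊤)
    (d : Fin 8 → ℕ) (hd : ∀ i, 1 ≤ d i) (hq : ∀ i, 64 * d i ^ 2 ≤ Fintype.card K)
    [Fintype (OG (H675.JJ K d) (Matrix.SpecialLinearGroup (Fin 3) K))] :
    ExpP (fun p => Equiv.mulLeft (alpha0 θ d p)) ((40 * rho0) ^ 2) := by
  letI : Algebra (ZMod 2) K := ZMod.algebra K 2
  have hθ' : Submodule.span (ZMod 2) (Set.range fun i : ℕ => θ ^ i) = ⊤ := by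
    rw [eq_top_iff]
    intro x _
    have hx : x ∈ AddSubgroup.closure (Set.range fun i : ℕ => θ ^ i) := by rw [hθ]; trivial
    induction hx using AddSubgroup.closure_induction with
    | mem y hy => exact Submodule.subset_span hy
    | zero => exact Submodule.zero_mem _
    | add y z _ _ hy hz => exact Submodule.add_mem _ (hy trivial) (hz trivial)
    | neg y _ hy => exact Submodule.neg_mem _ (hy trivial)
  intro f hf
  have h1 := base_left (edata θ hθ' d hd hq) f (by convert hf)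
  have h2 : ∀ g, ∑ p : Fin 20 × Bool, f (lz (gens θ d) p * g)
      = ∑ p : Fin 40, f (alpha0 θ d p * g) := by
    intro g
    rw [Fintype.sum_prod_type]
    simp only [Fintype.sum_bool, lz]
    rw [Finset.sum_add_distrib]
    have e := Fin.sum_univ_add (a := 20) (b := 20) fun p : Fin 40 => f (alpha0 θ d p * g)
    rw [e]
    refine congrArg₂ (· + ·) ?_ ?_
    · refine Finset.sum_congr rfl fun p _ => ?_
      unfold alpha0
      rw [dif_pos (by simp)]
      simp
    · refine Finset.sum_congr rfl fun p _ => ?_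
      unfold alpha0
      rw [dif_neg (by simp)]
      simp
  have h3 : (2 * ((Fintype.card (Fin 20) : ℕ) : ℝ) * √(loss 8 (Fintype.card (Fin 20))))
      = 40 * rho0 := by
    rw [Fintype.card_fin]; unfold rho0; norm_num
  rw [h3] at h1
  calc ∑ g, (∑ p, f ((Equiv.mulLeft (alpha0 θ d p)) g)) ^ 2
      = ∑ g, (∑ p : Fin 20 × Bool, f (lz (gens θ d) p * g)) ^ 2 := by
        refine Finset.sum_congr rfl fun g _ => ?_
        rw [h2]; rfl
    _ ≤ _ := by
        convert h1
        rfl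

/-- the label set: words of length `t` in `2 ^ j` letters -/
noncomputable def lab (θ : K) (d : Fin 8 → ℕ) (j t : ℕ) (b : Fin (2 ^ (j * t))) :
    H675.JJ K d × Matrix.SpecialLinearGroup (Fin 3) K :=
  (labels (alpha0 θ d) j t b : OG (H675.JJ K d) (Matrix.SpecialLinearGroup (Fin 3) K))

/-- the spectral bound of the label set -/
noncomputable def Lam (j t : ℕ) : ℝ := ((40 * rho0 + (2 ^ j - 40 : ℕ)) ^ 2) ^ t

theorem Lam_nonneg (j t : ℕ) : 0 ≤ Lam j t := by unfold Lam; positivity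

/-- **left translations by the labels**, on the sites `J × Γ` -/
theorem expP_lab_left (θ : K) (hθ : AddSubgroup.closure (Set.range fun i : ℕ => θ ^ i) = ⊤)
    (d : Fin 8 → ℕ) (hd : ∀ i, 1 ≤ d i) (hq : ∀ i, 64 * d i ^ 2 ≤ Fintype.card K)
    [Fintype (H675.JJ K d × Matrix.SpecialLinearGroup (Fin 3) K)]
    {j : ℕ} (hj : 40 ≤ 2 ^ j) (t : ℕ)
    (p : Fin (2 ^ (j * t)) → Equiv.Perm (H675.JJ K d × Matrix.SpecialLinearGroup (Fin 3) K))
    (hp : ∀ b h, p b h = H155.lt (lab θ d j t b).1 (lab θ d j t b).2 h) :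
    ExpP p (Lam j t) := by
  letI : Fintype (OG (H675.JJ K d) (Matrix.SpecialLinearGroup (Fin 3) K)) :=
    inferInstanceAs (Fintype (H675.JJ K d × Matrix.SpecialLinearGroup (Fin 3) K))
  have h1 := expP_labels (alpha0 θ d) hj (mul_nonneg (by norm_num) rho0_nonneg)
    (expP_alpha0 θ hθ d hd hq) t
  have h2 : p = fun b => Equiv.mulLeft (labels (alpha0 θ d) j t b) := by
    funext b
    ext1 h
    exact hp b h
  intro f hf
  rw [h2]
  exact h1 f hf

/-- **right translations by the labels**, on the sites `J × Γ` -/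
theorem expP_lab_right (θ : K) (hθ : AddSubgroup.closure (Set.range fun i : ℕ => θ ^ i) = ⊤)
    (d : Fin 8 → ℕ) (hd : ∀ i, 1 ≤ d i) (hq : ∀ i, 64 * d i ^ 2 ≤ Fintype.card K)
    [Fintype (H675.JJ K d × Matrix.SpecialLinearGroup (Fin 3) K)]
    {j : ℕ} (hj : 40 ≤ 2 ^ j) (t : ℕ)
    (p : Fin (2 ^ (j * t)) → Equiv.Perm (H675.JJ K d × Matrix.SpecialLinearGroup (Fin 3) K))
    (hp : ∀ b h, p b h = (h.1 + h.2 • (lab θ d j t b).1, h.2 * (lab θ d j t b).2)) :
    ExpP p (Lam j t) := by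
  letI : Fintype (OG (H675.JJ K d) (Matrix.SpecialLinearGroup (Fin 3) K)) :=
    inferInstanceAs (Fintype (H675.JJ K d × Matrix.SpecialLinearGroup (Fin 3) K))
  have h1 := expP_labels (alpha0 θ d) hj (mul_nonneg (by norm_num) rho0_nonneg)
    (expP_alpha0 θ hθ d hd hq) t
  have h3 := expP_right (Lam_nonneg j t) h1
  have h2 : p = fun b => Equiv.mulRight (labels (alpha0 θ d) j t b) := by
    funext b
    ext1 h
    exact hp b h
  intro f hf
  rw [h2]
  exact h3 f hf

/-- choice of the word length (see `H972.exists_len`) -/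
theorem exists_jt {c : ℝ} (hc : 0 < c) (e m0 : ℕ) :
    ∃ j t : ℕ, 40 ≤ 2 ^ j ∧ 0 < t ∧ m0 ≤ j * t ∧
      4 * Lam j t ≤ (c / (j * t : ℕ) ^ e * (2 ^ (j * t) : ℕ)) ^ 2 := by
  have h := Vale.Agent.P330.W.H972.exists_len (40 * rho0) 40 (mul_nonneg (by norm_num) rho0_nonneg)
    (by have := rho0_lt; push_cast; linarith) c hc e m0
  exact h

end Vale.Agent.P330.H143
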