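import Vale.Agent.P330.H143.Spec

/-!
# Relative property (T) for `K² ⋊ ⟨e12(1), e21(1), e21(θ)⟩` in characteristic two (P330, EXP1)
-/

namespace Vale.Agent.P330.H143

open Finset Module

set_option linter.all false

variable {K : Type*} [CommRing K] [Algebra (ZMod 2) K]

/-- first coordinate of a character of `K × K` on powers of `θ` -/
def c1 (θ : K) (χ : Dual (ZMod 2) (K × K)) (i : ℕ) : ZMod 2 := χ (θ ^ i, 0)

/-- second coordinate of a character of `K × K` on powers of `θ` -/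
def c2 (θ : K) (χ : Dual (ZMod 2) (K × K)) (i : ℕ) : ZMod 2 := χ (0, θ ^ i)

/-- `v1 < v2` -/
def SA (θ : K) (χ : Dual (ZMod 2) (K × K)) : Prop :=
  ∃ i, c1 θ χ i ≠ 0 ∧ ∀ j ≤ i, c2 θ χ j = 0

/-- `v2 < v1` -/
def SB (θ : K) (χ : Dual (ZMod 2) (K × K)) : Prop :=
  ∃ i, c2 θ χ i ≠ 0 ∧ ∀ j ≤ i, c1 θ χ j = 0

/-- `v1 = v2 < ∞` -/
def SC (θ : K) (χ : Dual (ZMod 2) (K × K)) : Prop :=
  ∃ i, c1 θ χ i ≠ 0 ∧ c2 θ χ i ≠ 0 ∧ ∀ j < i, c1 θ χ j = 0 ∧ c2 θ χ j = 0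

lemma trich (θ : K) (hθ : Submodule.span (ZMod 2) (Set.range fun i : ℕ => θ ^ i) = ⊤)
    (χ : Dual (ZMod 2) (K × K)) (h : χ ≠ 0) : SA θ χ ∨ SB θ χ ∨ SC θ χ := by
  have hex : ∃ i, c1 θ χ i ≠ 0 ∨ c2 θ χ i ≠ 0 := by
    by_contra hn
    push Not at hn
    apply h
    have e1 : χ ∘ₗ LinearMap.inl (ZMod 2) K K = 0 := by
      apply LinearMap.ext_on_range hθ
      intro i
      simpa [c1] using (hn i).1
    have e2 : χ ∘ₗ LinearMap.inr (ZMod 2) K K = 0 := by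
      apply LinearMap.ext_on_range hθ
      intro i
      simpa [c2] using (hn i).2
    exact LinearMap.prod_ext (by simpa using e1) (by simpa using e2)
  classical
  have hs := Nat.find_spec hex
  have hm : ∀ j < Nat.find hex, c1 θ χ j = 0 ∧ c2 θ χ j = 0 := by
    intro j hj
    have := Nat.find_min hex hj
    push Not at this
    exact this
  by_cases h1 : c1 θ χ (Nat.find hex) = 0
  · have h2 : c2 θ χ (Nat.find hex) ≠ 0 := by tauto
    refine Or.inr (Or.inl ⟨_, h2, fun j hj => ?_⟩)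
    rcases hj.lt_or_eq with hj | hj
    · exact (hm j hj).1
    · rw [hj]; exact h1
  · by_cases h2 : c2 θ χ (Nat.find hex) = 0
    · refine Or.inl ⟨_, h1, fun j hj => ?_⟩
      rcases hj.lt_or_eq with hj | hj
      · exact (hm j hj).2
      · rw [hj]; exact h2
    · exact Or.inr (Or.inr ⟨_, h1, h2, hm⟩)

lemma not_SB_SC (θ : K) (χ : Dual (ZMod 2) (K × K)) (hB : SB θ χ) (hC : SC θ χ) : False := by
  obtain ⟨i, hi, hi2⟩ := hB
  obtain ⟨j, hj1, hj2, hj3⟩ := hC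
  rcases lt_or_ge i j with h | h
  · exact hi (hj3 i h).2
  · exact hj1 (hi2 j h)

/-- `(x, y) ↦ (x + a y, y)` -/
def shU (a : K) : (K × K) ≃ₗ[ZMod 2] (K × K) where
  toFun p := (p.1 + a * p.2, p.2)
  invFun p := (p.1 - a * p.2, p.2)
  map_add' p q := by ext <;> simp; ring
  map_smul' c p := by ext <;> simp
  left_inv p := by ext <;> simp
  right_inv p := by ext <;> simp

/-- `(x, y) ↦ (x, y + a x)` -/
def shL (a : K) : (K × K) ≃ₗ[ZMod 2] (K × K) where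
  toFun p := (p.1, p.2 + a * p.1)
  invFun p := (p.1, p.2 - a * p.1)
  map_add' p q := by ext <;> simp; ring
  map_smul' c p := by ext <;> simp
  left_inv p := by ext <;> simp
  right_inv p := by ext <;> simp

lemma c1_shU (θ a : K) (χ : Dual (ZMod 2) (K × K)) (i : ℕ) :
    c1 θ (χ ∘ₗ (shU a : (K × K) →ₗ[ZMod 2] (K × K))) i = c1 θ χ i := by
  simp [c1, shU]

lemma c2_shU_one (θ : K) (χ : Dual (ZMod 2) (K × K)) (i : ℕ) :
    c2 θ (χ ∘ₗ (shU (1 : K) : (K × K) →ₗ[ZMod 2] (K × K))) i = c1 θ χ i + c2 θ χ i := by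
  simp only [c1, c2, shU, LinearMap.comp_apply, LinearEquiv.coe_coe, LinearEquiv.coe_mk,
    LinearMap.coe_mk, AddHom.coe_mk, zero_add, one_mul]
  rw [← map_add]; simp

lemma c2_shL (θ a : K) (χ : Dual (ZMod 2) (K × K)) (i : ℕ) :
    c2 θ (χ ∘ₗ (shL a : (K × K) →ₗ[ZMod 2] (K × K))) i = c2 θ χ i := by
  simp [c2, shL]

lemma c1_shL_one (θ : K) (χ : Dual (ZMod 2) (K × K)) (i : ℕ) :
    c1 θ (χ ∘ₗ (shL (1 : K) : (K × K) →ₗ[ZMod 2] (K × K))) i = c1 θ χ i + c2 θ χ i := by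
  simp only [c1, c2, shL, LinearMap.comp_apply, LinearEquiv.coe_coe, LinearEquiv.coe_mk,
    LinearMap.coe_mk, AddHom.coe_mk, zero_add, one_mul]
  rw [← map_add]; simp

lemma c1_shL_th (θ : K) (χ : Dual (ZMod 2) (K × K)) (i : ℕ) :
    c1 θ (χ ∘ₗ (shL θ : (K × K) →ₗ[ZMod 2] (K × K))) i = c1 θ χ i + c2 θ χ (i + 1) := by
  simp only [c1, c2, shL, LinearMap.comp_apply, LinearEquiv.coe_coe, LinearEquiv.coe_mk,
    LinearMap.coe_mk, AddHom.coe_mk, zero_add]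
  rw [← map_add]; simp [pow_succ, mul_comm]

lemma z2_ne {x : ZMod 2} (h : x ≠ 0) : x = 1 := by
  revert x; decide

lemma A_to_C (θ : K) (χ : Dual (ZMod 2) (K × K)) (h : SA θ χ) :
    SC θ (χ ∘ₗ (shU (1 : K) : (K × K) →ₗ[ZMod 2] (K × K))) := by
  obtain ⟨i, hi, hi2⟩ := h
  classical
  -- minimal index with c1 ≠ 0
  have hex : ∃ i, c1 θ χ i ≠ 0 := ⟨i, hi⟩
  have hle : Nat.find hex ≤ i := Nat.find_min' hex hi
  refine ⟨Nat.find hex, ?_, ?_, ?_⟩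
  · rw [c1_shU]; exact Nat.find_spec hex
  · rw [c2_shU_one, hi2 _ hle, add_zero]; exact Nat.find_spec hex
  · intro j hj
    have h1 : c1 θ χ j = 0 := by
      have := Nat.find_min hex hj
      push Not at this; exact this
    rw [c1_shU, c2_shU_one, h1, hi2 j (hj.le.trans hle)]
    simp

lemma C_to_A (θ : K) (χ : Dual (ZMod 2) (K × K)) (h : SC θ χ) :
    SA θ (χ ∘ₗ (shU (1 : K) : (K × K) →ₗ[ZMod 2] (K × K))) := by
  obtain ⟨i, hi, hi2, hi3⟩ := h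
  refine ⟨i, by rwa [c1_shU], fun j hj => ?_⟩
  rw [c2_shU_one]
  rcases hj.lt_or_eq with hj | hj
  · rw [(hi3 j hj).1, (hi3 j hj).2, add_zero]
  · rw [hj, z2_ne hi, z2_ne hi2]; decide

lemma B_to_C (θ : K) (χ : Dual (ZMod 2) (K × K)) (h : SB θ χ) :
    SC θ (χ ∘ₗ (shL (1 : K) : (K × K) →ₗ[ZMod 2] (K × K))) := by
  obtain ⟨i, hi, hi2⟩ := h
  classical
  have hex : ∃ i, c2 θ χ i ≠ 0 := ⟨i, hi⟩
  have hle : Nat.find hex ≤ i := Nat.find_min' hex hi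
  refine ⟨Nat.find hex, ?_, ?_, ?_⟩
  · rw [c1_shL_one, hi2 _ hle, zero_add]; exact Nat.find_spec hex
  · rw [c2_shL]; exact Nat.find_spec hex
  · intro j hj
    have h1 : c2 θ χ j = 0 := by
      have := Nat.find_min hex hj
      push Not at this; exact this
    rw [c2_shL, c1_shL_one, h1, hi2 j (hj.le.trans hle)]
    simp

lemma C_to_B (θ : K) (χ : Dual (ZMod 2) (K × K)) (h : SC θ χ) :
    SB θ (χ ∘ₗ (shL (1 : K) : (K × K) →ₗ[ZMod 2] (K × K))) := by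
  obtain ⟨i, hi, hi2, hi3⟩ := h
  refine ⟨i, by rwa [c2_shL], fun j hj => ?_⟩
  rw [c1_shL_one]
  rcases hj.lt_or_eq with hj | hj
  · rw [(hi3 j hj).1, (hi3 j hj).2, add_zero]
  · rw [hj, z2_ne hi, z2_ne hi2]; decide

/-- `v2 ≤ v1`, `v2 ≥ 1` -/
def SD (θ : K) (χ : Dual (ZMod 2) (K × K)) : Prop := (SB θ χ ∨ SC θ χ) ∧ χ (0, 1) = 0

lemma BC_to_A (θ : K) (χ : Dual (ZMod 2) (K × K)) (h : SD θ χ) :
    SA θ (χ ∘ₗ (shL θ : (K × K) →ₗ[ZMod 2] (K × K))) := by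
  obtain ⟨h, h0⟩ := h
  have h0' : c2 θ χ 0 = 0 := by simpa [c2] using h0
  -- a common description
  have key : ∃ i, c2 θ χ (i + 1) ≠ 0 ∧ ∀ j ≤ i, c1 θ χ j = 0 ∧ c2 θ χ j = 0 := by
    rcases h with h | h
    · obtain ⟨i, hi, hi2⟩ := h
      classical
      have hex : ∃ i, c2 θ χ i ≠ 0 := ⟨i, hi⟩
      have hle : Nat.find hex ≤ i := Nat.find_min' hex hi
      have hpos : Nat.find hex ≠ 0 := by
        intro h1
        have := Nat.find_spec hex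
        rw [h1] at this
        exact this h0'
      obtain ⟨m, hm⟩ := Nat.exists_eq_succ_of_ne_zero hpos
      refine ⟨m, ?_, ?_⟩
      · have := Nat.find_spec hex
        rwa [hm] at this
      · intro j hj
        have hj' : j < Nat.find hex := by omega
        have := Nat.find_min hex hj'
        push Not at this
        exact ⟨hi2 j (by omega), this⟩
    · obtain ⟨i, hi, hi2, hi3⟩ := h
      cases i with
      | zero => exact absurd h0' hi2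
      | succ m => exact ⟨m, hi2, fun j hj => hi3 j (by omega)⟩
  obtain ⟨i, hi, hi2⟩ := key
  refine ⟨i, ?_, fun j hj => ?_⟩
  · rw [c1_shL_th, (hi2 i le_rfl).1, zero_add]; exact hi
  · rw [c2_shL]; exact (hi2 j hj).2

variable [Fintype K] {H : Type*} [NormedAddCommGroup H] [InnerProductSpace ℝ H]

open Classical in
/-- **Relative property (T)** in characteristic two, explicit constants. -/
theorem relT (θ : K) (hθ : Submodule.span (ZMod 2) (Set.range fun i : ℕ => θ ^ i) = ⊤)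
    (σ : Multiplicative (K × K) →* (H ≃ₗᵢ[ℝ] H)) (T1 T2 T3 : H ≃ₗᵢ[ℝ] H)
    (h1 : ∀ w f, T1 (σ (Multiplicative.ofAdd w) f) = σ (Multiplicative.ofAdd (shU (1 : K) w)) (T1 f))
    (h2 : ∀ w f, T2 (σ (Multiplicative.ofAdd w) f) = σ (Multiplicative.ofAdd (shL (1 : K) w)) (T2 f))
    (h3 : ∀ w f, T3 (σ (Multiplicative.ofAdd w) f) = σ (Multiplicative.ofAdd (shL θ w)) (T3 f))
    (f : H) {ε : ℝ} (hε : 0 ≤ ε) (hε1 : ε ≤ 1)
    (hT1 : ‖T1 f - f‖ ≤ ε * ‖f‖) (hT2 : ‖T2 f - f‖ ≤ ε * ‖f‖) (hT3 : ‖T3 f - f‖ ≤ ε * ‖f‖)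
    (hw : ‖σ (Multiplicative.ofAdd ((0 : K), (1 : K))) f - f‖ ≤ ε * ‖f‖) :
    ‖f - comp σ 0 f‖ ^ 2 ≤ 19 * ε * ‖f‖ ^ 2 := by
  have a1 := move σ T1 _ h1 _ _ (A_to_C θ) f hT1
  have a2 := move σ T1 _ h1 _ _ (C_to_A θ) f hT1
  have a3 := move σ T2 _ h2 _ _ (B_to_C θ) f hT2
  have a4 := move σ T2 _ h2 _ _ (C_to_B θ) f hT2
  have a5 := move σ T3 _ h3 _ _ (BC_to_A θ) f hT3
  have a6 := disp_eq σ ((0 : K), (1 : K)) f
  -- B ∪ C splits
  have a7 : ∑ χ ∈ univ.filter (SB θ), wt σ χ f + ∑ χ ∈ univ.filter (SC θ), wt σ χ f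
      ≤ ∑ χ ∈ univ.filter (SD θ), wt σ χ f
        + ∑ χ ∈ univ.filter (fun χ : Dual (ZMod 2) (K × K) => χ (0, 1) ≠ 0), wt σ χ f := by
    simp only [Finset.sum_filter]
    rw [← Finset.sum_add_distrib, ← Finset.sum_add_distrib]
    refine Finset.sum_le_sum fun χ _ => ?_
    have hn := not_SB_SC θ χ
    have hp := wt_nonneg σ χ f
    by_cases hB : SB θ χ <;> by_cases hC : SC θ χ <;> by_cases hz : χ (0, 1) = 0 <;>
      simp [SD, hB, hC, hz, hp] <;> exact absurd hC (hn hB)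
  have a8 : ∑ χ ∈ univ.filter (fun χ : Dual (ZMod 2) (K × K) => χ ≠ 0), wt σ χ f
      ≤ ∑ χ ∈ univ.filter (SA θ), wt σ χ f + ∑ χ ∈ univ.filter (SB θ), wt σ χ f
        + ∑ χ ∈ univ.filter (SC θ), wt σ χ f := by
    simp only [Finset.sum_filter]
    rw [← Finset.sum_add_distrib, ← Finset.sum_add_distrib]
    refine Finset.sum_le_sum fun χ _ => ?_
    have hp := wt_nonneg σ χ f
    by_cases hz : χ = 0
    · rw [if_neg (by simpa using hz)]
      positivity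
    · rw [if_pos hz]
      have ht := trich θ hθ χ hz
      by_cases hA : SA θ χ <;> by_cases hB : SB θ χ <;> by_cases hC : SC θ χ <;>
        simp [hA, hB, hC] <;> first | linarith | (exfalso; tauto)
  have a9 : ∑ χ ∈ univ.filter (fun χ : Dual (ZMod 2) (K × K) => χ ≠ 0), wt σ χ f
      = ‖f - comp σ 0 f‖ ^ 2 := by
    rw [← sum_wt_ne_zero]
  have a6' : ‖σ (Multiplicative.ofAdd ((0 : K), (1 : K))) f - f‖ ^ 2
      = 4 * ∑ χ ∈ univ.filter (fun χ : Dual (ZMod 2) (K × K) => χ (0, 1) ≠ 0), wt σ χ f := by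
    rw [a6]
  have hsq : ‖σ (Multiplicative.ofAdd ((0 : K), (1 : K))) f - f‖ ^ 2 ≤ (ε * ‖f‖) ^ 2 :=
    pow_le_pow_left₀ (norm_nonneg _) hw 2
  have hz2 : ∑ χ ∈ univ.filter (fun χ : Dual (ZMod 2) (K × K) => χ (0, 1) ≠ 0), wt σ χ f
      ≤ ε / 4 * ‖f‖ ^ 2 := by
    have : ε ^ 2 ≤ ε := by nlinarith
    have h4 : ε ^ 2 * ‖f‖ ^ 2 ≤ ε * ‖f‖ ^ 2 := mul_le_mul_of_nonneg_right this (sq_nonneg _)
    nlinarith
  rw [← a9]
  have hF : 0 ≤ ε * ‖f‖ ^ 2 := mul_nonneg hε (sq_nonneg ‖f‖)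
  nlinarith

end Vale.Agent.P330.H143
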