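import Vale.Agent.P330.H143.RelT

/-!
# Kazhdan constant of `SL₃(K)`, `K` a finite field of characteristic two (P330, EXP2)
-/

set_option linter.all false

namespace Vale.Agent.P330.H143

open Finset Module Matrix

section gauss

variable {K : Type*} [Field K]

/-- elementary matrix as an element of `SL₃` -/
def tv {i j : Fin 3} (h : i ≠ j) (c : K) : Matrix.SpecialLinearGroup (Fin 3) K := SpecialLinearGroup.transvection h c

lemma tv_val {i j : Fin 3} (h : i ≠ j) (c : K) :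
    (tv h c : Matrix (Fin 3) (Fin 3) K) = Matrix.transvection i j c := rfl

lemma tv_mul_same {i j : Fin 3} (h : i ≠ j) (c : K) (g : Matrix.SpecialLinearGroup (Fin 3) K) (b : Fin 3) :
    (tv h c * g) i b = g i b + c * g j b :=
  Matrix.transvection_mul_apply_same i j b c (g : Matrix (Fin 3) (Fin 3) K)

lemma tv_mul_ne {i j : Fin 3} (h : i ≠ j) (c : K) (g : Matrix.SpecialLinearGroup (Fin 3) K) (a b : Fin 3) (ha : a ≠ i) :
    (tv h c * g) a b = g a b :=
  Matrix.transvection_mul_apply_of_ne i j a b ha c (g : Matrix (Fin 3) (Fin 3) K)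

lemma mul_tv_same {i j : Fin 3} (h : i ≠ j) (c : K) (g : Matrix.SpecialLinearGroup (Fin 3) K) (a : Fin 3) :
    (g * tv h c) a j = g a j + c * g a i :=
  Matrix.mul_transvection_apply_same i j a c (g : Matrix (Fin 3) (Fin 3) K)

lemma mul_tv_ne {i j : Fin 3} (h : i ≠ j) (c : K) (g : Matrix.SpecialLinearGroup (Fin 3) K) (a b : Fin 3) (hb : b ≠ j) :
    (g * tv h c) a b = g a b :=
  Matrix.mul_transvection_apply_of_ne i j a b hb c (g : Matrix (Fin 3) (Fin 3) K)

lemma tv_inv {i j : Fin 3} (h : i ≠ j) (c : K) : (tv h c)⁻¹ = tv h (-c) :=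
  SpecialLinearGroup.transvection_inv h c

variable (D : Matrix.SpecialLinearGroup (Fin 3) K → ℝ) (δ : ℝ) (hmul : ∀ g h, D (g * h) ≤ D g + D h)
  (htv : ∀ (i j : Fin 3) (h : i ≠ j) (c : K), D (tv h c) ≤ δ)

include hmul htv

lemma left_step {i j : Fin 3} (h : i ≠ j) (c : K) (g : Matrix.SpecialLinearGroup (Fin 3) K) {m : ℝ} (hm : D (tv h c * g) ≤ m) :
    D g ≤ m + δ := by
  have h1 : g = tv h (-c) * (tv h c * g) := by
    rw [← tv_inv, ← mul_assoc, inv_mul_cancel, one_mul]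
  calc D g = D (tv h (-c) * (tv h c * g)) := by rw [← h1]
    _ ≤ D (tv h (-c)) + D (tv h c * g) := hmul _ _
    _ ≤ m + δ := by linarith [htv i j h (-c)]

lemma right_step {i j : Fin 3} (h : i ≠ j) (c : K) (g : Matrix.SpecialLinearGroup (Fin 3) K) {m : ℝ} (hm : D (g * tv h c) ≤ m) :
    D g ≤ m + δ := by
  have h1 : g = (g * tv h c) * tv h (-c) := by
    rw [← tv_inv, mul_assoc, mul_inv_cancel, mul_one]
  calc D g = D ((g * tv h c) * tv h (-c)) := by rw [← h1]
    _ ≤ D (g * tv h c) + D (tv h (-c)) := hmul _ _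
    _ ≤ m + δ := by linarith [htv i j h (-c)]

lemma gaussA0 (g : Matrix.SpecialLinearGroup (Fin 3) K) (h00 : g 0 0 = 1) (h10 : g 1 0 = 0) (h20 : g 2 0 = 0)
    (h01 : g 0 1 = 0) (h02 : g 0 2 = 0) (h11 : g 1 1 = 1) (h21 : g 2 1 = 0) :
    D g ≤ δ := by
  have hd := g.2
  rw [Matrix.det_fin_three] at hd
  simp only [h00, h10, h20, h01, h02, h11, h21] at hd
  have h22 : g 2 2 = 1 := by linear_combination hd
  have he : g = tv (show (1 : Fin 3) ≠ 2 by decide) (g 1 2) := by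
    apply Subtype.ext
    rw [tv_val]
    ext a b
    fin_cases a <;> fin_cases b <;>
      simp [Matrix.transvection, Matrix.single, h00, h10, h20, h01, h02, h11, h21, h22]
  rw [he]
  exact htv _ _ _ _

lemma gaussA1 (g : Matrix.SpecialLinearGroup (Fin 3) K) (h00 : g 0 0 = 1) (h10 : g 1 0 = 0) (h20 : g 2 0 = 0)
    (h01 : g 0 1 = 0) (h02 : g 0 2 = 0) (h21 : g 2 1 ≠ 0) :
    D g ≤ 3 * δ := by
  have n12 : (1 : Fin 3) ≠ 2 := by decide
  have n21 : (2 : Fin 3) ≠ 1 := by decide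
  have n01 : (0 : Fin 3) ≠ 1 := by decide
  have n02 : (0 : Fin 3) ≠ 2 := by decide
  have e : (3 : ℝ) * δ = (δ + δ) + δ := by ring
  rw [e]
  refine left_step D δ hmul htv n12 ((1 - g 1 1) / g 2 1) g ?_
  refine left_step D δ hmul htv n21 (-g 2 1) _ ?_
  refine gaussA0 D δ hmul htv _ ?_ ?_ ?_ ?_ ?_ ?_ ?_
  · rw [tv_mul_ne n21 _ _ _ _ n02, tv_mul_ne n12 _ _ _ _ n01, h00]
  · rw [tv_mul_ne n21 _ _ _ _ n12, tv_mul_same n12, h10, h20]; ring
  · rw [tv_mul_same n21, tv_mul_ne n12 _ _ _ _ n21, tv_mul_same n12, h10, h20]; ring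
  · rw [tv_mul_ne n21 _ _ _ _ n02, tv_mul_ne n12 _ _ _ _ n01, h01]
  · rw [tv_mul_ne n21 _ _ _ _ n02, tv_mul_ne n12 _ _ _ _ n01, h02]
  · rw [tv_mul_ne n21 _ _ _ _ n12, tv_mul_same n12]; field_simp; ring
  · rw [tv_mul_same n21, tv_mul_ne n12 _ _ _ _ n21, tv_mul_same n12]; field_simp; ring

lemma gaussA (hδ : 0 ≤ δ) (g : Matrix.SpecialLinearGroup (Fin 3) K) (h00 : g 0 0 = 1) (h10 : g 1 0 = 0) (h20 : g 2 0 = 0)
    (h01 : g 0 1 = 0) (h02 : g 0 2 = 0) :
    D g ≤ 4 * δ := by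
  have n12 : (1 : Fin 3) ≠ 2 := by decide
  have n21 : (2 : Fin 3) ≠ 1 := by decide
  have n01 : (0 : Fin 3) ≠ 1 := by decide
  have n02 : (0 : Fin 3) ≠ 2 := by decide
  by_cases h21 : g 2 1 = 0
  · have hd := g.2
    rw [Matrix.det_fin_three] at hd
    simp only [h00, h10, h20, h01, h02, h21] at hd
    have h11 : g 1 1 ≠ 0 := by
      intro h; rw [h] at hd; simp at hd
    have e : (4 : ℝ) * δ = 3 * δ + δ := by ring
    rw [e]
    refine left_step D δ hmul htv n21 1 g ?_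
    refine gaussA1 D δ hmul htv _ ?_ ?_ ?_ ?_ ?_ ?_
    · rw [tv_mul_ne n21 _ _ _ _ n02, h00]
    · rw [tv_mul_ne n21 _ _ _ _ n12, h10]
    · rw [tv_mul_same n21, h20, h10]; ring
    · rw [tv_mul_ne n21 _ _ _ _ n02, h01]
    · rw [tv_mul_ne n21 _ _ _ _ n02, h02]
    · rw [tv_mul_same n21, h21]; simpa using h11
  · exact (gaussA1 D δ hmul htv g h00 h10 h20 h01 h02 h21).trans (by linarith)

lemma gaussB (hδ : 0 ≤ δ) (g : Matrix.SpecialLinearGroup (Fin 3) K) (h00 : g 0 0 = 1) (h10 : g 1 0 = 0) (h20 : g 2 0 = 0) :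
    D g ≤ 6 * δ := by
  have n01 : (0 : Fin 3) ≠ 1 := by decide
  have n02 : (0 : Fin 3) ≠ 2 := by decide
  have n12 : (1 : Fin 3) ≠ 2 := by decide
  have n21 : (2 : Fin 3) ≠ 1 := by decide
  have e : (6 : ℝ) * δ = (4 * δ + δ) + δ := by ring
  rw [e]
  refine right_step D δ hmul htv n01 (-g 0 1) g ?_
  refine right_step D δ hmul htv n02 (-g 0 2) _ ?_
  refine gaussA D δ hmul htv hδ _ ?_ ?_ ?_ ?_ ?_
  · rw [mul_tv_ne n02 _ _ _ _ n02, mul_tv_ne n01 _ _ _ _ n01, h00]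
  · rw [mul_tv_ne n02 _ _ _ _ n02, mul_tv_ne n01 _ _ _ _ n01, h10]
  · rw [mul_tv_ne n02 _ _ _ _ n02, mul_tv_ne n01 _ _ _ _ n01, h20]
  · rw [mul_tv_ne n02 _ _ _ _ n12, mul_tv_same n01, h00]; ring
  · rw [mul_tv_same n02, mul_tv_ne n01 _ _ _ _ n21, mul_tv_ne n01 _ _ _ _ n01, h00]; ring

lemma gaussC1 (hδ : 0 ≤ δ) (g : Matrix.SpecialLinearGroup (Fin 3) K) (h00 : g 0 0 = 1) :
    D g ≤ 8 * δ := by
  have n10 : (1 : Fin 3) ≠ 0 := by decide
  have n20 : (2 : Fin 3) ≠ 0 := by decide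
  have n01 : (0 : Fin 3) ≠ 1 := by decide
  have n02 : (0 : Fin 3) ≠ 2 := by decide
  have n12 : (1 : Fin 3) ≠ 2 := by decide
  have n21 : (2 : Fin 3) ≠ 1 := by decide
  have e : (8 : ℝ) * δ = (6 * δ + δ) + δ := by ring
  rw [e]
  refine left_step D δ hmul htv n10 (-g 1 0) g ?_
  refine left_step D δ hmul htv n20 (-g 2 0) _ ?_
  refine gaussB D δ hmul htv hδ _ ?_ ?_ ?_
  · rw [tv_mul_ne n20 _ _ _ _ n02, tv_mul_ne n10 _ _ _ _ n01, h00]
  · rw [tv_mul_ne n20 _ _ _ _ n12, tv_mul_same n10, h00]; ring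
  · rw [tv_mul_same n20, tv_mul_ne n10 _ _ _ _ n21, tv_mul_ne n10 _ _ _ _ n01, h00]; ring

lemma gaussC2 (hδ : 0 ≤ δ) (g : Matrix.SpecialLinearGroup (Fin 3) K) (h : g 1 0 ≠ 0) :
    D g ≤ 9 * δ := by
  have n01 : (0 : Fin 3) ≠ 1 := by decide
  have e : (9 : ℝ) * δ = 8 * δ + δ := by ring
  rw [e]
  refine left_step D δ hmul htv n01 ((1 - g 0 0) / g 1 0) g ?_
  refine gaussC1 D δ hmul htv hδ _ ?_
  rw [tv_mul_same n01]; field_simp; ring

/-- every element of `SL₃(K)` is a product of at most 10 elementary matrices, in the form of a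
bound for subadditive functions -/
lemma gauss (hδ : 0 ≤ δ) (g : Matrix.SpecialLinearGroup (Fin 3) K) : D g ≤ 10 * δ := by
  have n01 : (0 : Fin 3) ≠ 1 := by decide
  have n02 : (0 : Fin 3) ≠ 2 := by decide
  have n10 : (1 : Fin 3) ≠ 0 := by decide
  by_cases h1 : g 1 0 = 0
  · by_cases h2 : g 2 0 = 0
    · have h0 : g 0 0 ≠ 0 := by
        intro h0
        have hd := g.2
        rw [Matrix.det_fin_three, h0, h1, h2] at hd
        simp at hd
      have e : (10 : ℝ) * δ = 9 * δ + δ := by ring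
      rw [e]
      refine left_step D δ hmul htv n10 1 g ?_
      refine gaussC2 D δ hmul htv hδ _ ?_
      rw [tv_mul_same n10, h1]; simpa using h0
    · have e : (10 : ℝ) * δ = 9 * δ + δ := by ring
      rw [e]
      have e' : (9 : ℝ) * δ = 8 * δ + δ := by ring
      have h3 : D g ≤ 8 * δ + δ := by
        refine left_step D δ hmul htv n02 ((1 - g 0 0) / g 2 0) g ?_
        refine gaussC1 D δ hmul htv hδ _ ?_
        rw [tv_mul_same n02]; field_simp; ring
      linarith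
  · exact (gaussC2 D δ hmul htv hδ g h1).trans (by linarith)

end gauss

section kazhdan

variable {K : Type*} [Field K] [Fintype K] [Algebra (ZMod 2) K]

section rel
variable {R : Type*} [CommRing R]

lemma m_col {i j k : Fin 3} (hik : i ≠ k) (hjk : j ≠ k) (x y : R) :
    Matrix.transvection i k x * Matrix.transvection j k y
      = Matrix.transvection j k y * Matrix.transvection i k x := by
  simp only [Matrix.transvection, mul_add, add_mul, one_mul, mul_one,
    Matrix.single_mul_single_of_ne _ _ _ _ hik.symm,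
    Matrix.single_mul_single_of_ne _ _ _ _ hjk.symm, add_zero]
  abel

lemma m_row {i j k : Fin 3} (hij : i ≠ j) (hik : i ≠ k) (x y : R) :
    Matrix.transvection i j x * Matrix.transvection i k y
      = Matrix.transvection i k y * Matrix.transvection i j x := by
  simp only [Matrix.transvection, mul_add, add_mul, one_mul, mul_one,
    Matrix.single_mul_single_of_ne _ _ _ _ hij.symm,
    Matrix.single_mul_single_of_ne _ _ _ _ hik.symm, add_zero]
  abel

lemma m_comm {i j k : Fin 3} (hij : i ≠ j) (hik : i ≠ k) (hjk : j ≠ k) (c y : R) :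
    Matrix.transvection i j c * Matrix.transvection j k y
      = Matrix.transvection i k (c * y) * Matrix.transvection j k y *
        Matrix.transvection i j c := by
  simp only [Matrix.transvection, mul_add, add_mul, one_mul, mul_one,
    Matrix.single_mul_single_of_ne _ _ _ _ hij.symm,
    Matrix.single_mul_single_of_ne _ _ _ _ hik.symm,
    Matrix.single_mul_single_of_ne _ _ _ _ hjk.symm,
    Matrix.single_mul_single_same, add_zero, zero_mul]
  abel

end rel

lemma tv_add {i j : Fin 3} (h : i ≠ j) (a b : K) : tv h (a + b) = tv h a * tv h b :=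
  SpecialLinearGroup.transvection_add h a b

lemma tv_zero {i j : Fin 3} (h : i ≠ j) : tv h (0 : K) = 1 :=
  SpecialLinearGroup.transvection_coeff_zero h

lemma tv_col {i j k : Fin 3} (hik : i ≠ k) (hjk : j ≠ k) (x y : K) :
    tv hik x * tv hjk y = tv hjk y * tv hik x :=
  Subtype.ext (m_col hik hjk x y)

lemma tv_row {i j k : Fin 3} (hij : i ≠ j) (hik : i ≠ k) (x y : K) :
    tv hij x * tv hik y = tv hik y * tv hij x :=
  Subtype.ext (m_row hij hik x y)

lemma tv_comm {i j k : Fin 3} (hij : i ≠ j) (hik : i ≠ k) (hjk : j ≠ k) (c y : K) :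
    tv hij c * tv hjk y = tv hik (c * y) * tv hjk y * tv hij c :=
  Subtype.ext (m_comm hij hik hjk c y)

/-- the column subgroup `(x, y) ↦ e_ik(x) e_jk(y)` -/
def col {i j k : Fin 3} (hik : i ≠ k) (hjk : j ≠ k) :
    Multiplicative (K × K) →* Matrix.SpecialLinearGroup (Fin 3) K where
  toFun p := tv hik p.toAdd.1 * tv hjk p.toAdd.2
  map_one' := by
    show tv hik (0 : K) * tv hjk (0 : K) = 1
    rw [tv_zero, tv_zero, one_mul]
  map_mul' p q := by
    show tv hik (p.toAdd.1 + q.toAdd.1) * tv hjk (p.toAdd.2 + q.toAdd.2) =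
      tv hik p.toAdd.1 * tv hjk p.toAdd.2 * (tv hik q.toAdd.1 * tv hjk q.toAdd.2)
    rw [tv_add, tv_add, mul_assoc, mul_assoc, ← mul_assoc (tv hik q.toAdd.1),
      tv_col hik hjk q.toAdd.1 p.toAdd.2, mul_assoc]

lemma col_apply {i j k : Fin 3} (hik : i ≠ k) (hjk : j ≠ k) (w : K × K) :
    col hik hjk (Multiplicative.ofAdd w) = tv hik w.1 * tv hjk w.2 := rfl

lemma col_U {i j k : Fin 3} (hij : i ≠ j) (hik : i ≠ k) (hjk : j ≠ k) (c : K) (w : K × K) :
    tv hij c * col hik hjk (Multiplicative.ofAdd w)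
      = col hik hjk (Multiplicative.ofAdd (shU c w)) * tv hij c := by
  rw [col_apply, col_apply]
  show tv hij c * (tv hik w.1 * tv hjk w.2) =
    tv hik (w.1 + c * w.2) * tv hjk w.2 * tv hij c
  rw [← mul_assoc, tv_row hij hik, mul_assoc, tv_comm hij hik hjk, tv_add]
  simp only [mul_assoc]

lemma col_L {i j k : Fin 3} (hji : j ≠ i) (hik : i ≠ k) (hjk : j ≠ k) (c : K) (w : K × K) :
    tv hji c * col hik hjk (Multiplicative.ofAdd w)
      = col hik hjk (Multiplicative.ofAdd (shL c w)) * tv hji c := by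
  rw [col_apply, col_apply]
  show tv hji c * (tv hik w.1 * tv hjk w.2) =
    tv hik w.1 * tv hjk (w.2 + c * w.1) * tv hji c
  rw [tv_col hik hjk w.1 w.2, ← mul_assoc, tv_row hji hjk, mul_assoc, tv_comm hji hjk hik,
    tv_col hik hjk, tv_add]
  rw [← mul_assoc, ← mul_assoc, mul_assoc (tv hjk w.2) (tv hjk (c * w.1)) (tv hik w.1)]

variable {H : Type*} [NormedAddCommGroup H] [InnerProductSpace ℝ H]
  (π : Matrix.SpecialLinearGroup (Fin 3) K →* (H ≃ₗᵢ[ℝ] H))

lemma disp_mul {G : Type*} [Group G] (π : G →* (H ≃ₗᵢ[ℝ] H)) (f : H) (g h : G) :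
    ‖π (g * h) f - f‖ ≤ ‖π g f - f‖ + ‖π h f - f‖ := by
  have h1 : π (g * h) f - f = π g (π h f - f) + (π g f - f) := by
    rw [map_mul, map_sub]
    show π g (π h f) - f = _
    abel
  rw [h1]
  calc _ ≤ ‖π g (π h f - f)‖ + ‖π g f - f‖ := norm_add_le _ _
    _ = _ := by rw [LinearIsometryEquiv.norm_map]; ring

/-- root subgroups almost fix `f` -/
lemma root_disp (θ : K) (hθ : Submodule.span (ZMod 2) (Set.range fun i : ℕ => θ ^ i) = ⊤)
    (f : H) {ε : ℝ} (hε : 0 ≤ ε) (hε1 : ε ≤ 1)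
    (h1 : ∀ (i j : Fin 3) (h : i ≠ j), ‖π (tv h (1 : K)) f - f‖ ≤ ε * ‖f‖)
    (h2 : ∀ (i j : Fin 3) (h : i ≠ j), ‖π (tv h θ) f - f‖ ≤ ε * ‖f‖)
    (i j k : Fin 3) (hij : i ≠ j) (hik : i ≠ k) (hjk : j ≠ k) (x : K) :
    ‖π (tv hik x) f - f‖ ≤ 10 * √ε * ‖f‖ := by
  have key := relT θ hθ (π.comp (col hik hjk)) (π (tv hij (1 : K))) (π (tv hij.symm (1 : K)))
    (π (tv hij.symm θ)) ?_ ?_ ?_ f hε hε1 (h1 _ _ _) (h1 _ _ _) (h2 _ _ _) ?_
  · have h3 := norm_comp_zero_disp (π.comp (col hik hjk)) (x, (0 : K)) f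
    have h4 : (π.comp (col hik hjk)) (Multiplicative.ofAdd (x, (0 : K))) = π (tv hik x) := by
      rw [MonoidHom.comp_apply, col_apply]
      simp only [tv_zero, mul_one]
    rw [h4] at h3
    have h5 : ‖f - comp (π.comp (col hik hjk)) 0 f‖ ≤ 5 * √ε * ‖f‖ := by
      apply abs_le_of_sq_le_sq' _ (by positivity) |>.2
      calc _ ≤ 19 * ε * ‖f‖ ^ 2 := key
        _ ≤ 25 * ε * ‖f‖ ^ 2 := by
            have := mul_nonneg hε (sq_nonneg ‖f‖); nlinarith
        _ = (5 * √ε * ‖f‖) ^ 2 := by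
            rw [mul_pow, mul_pow, Real.sq_sqrt hε]; norm_num
    linarith
  · intro w g
    have := congrArg (fun a => π a g) (col_U hij hik hjk (1 : K) w)
    simp only [map_mul] at this
    exact this
  · intro w g
    have := congrArg (fun a => π a g) (col_L hij.symm hik hjk (1 : K) w)
    simp only [map_mul] at this
    exact this
  · intro w g
    have := congrArg (fun a => π a g) (col_L hij.symm hik hjk θ w)
    simp only [map_mul] at this
    exact this
  · have h4 : (π.comp (col hik hjk)) (Multiplicative.ofAdd ((0 : K), (1 : K)))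
        = π (tv hjk (1 : K)) := by
      rw [MonoidHom.comp_apply, col_apply]
      simp only [tv_zero, one_mul]
    rw [h4]
    exact h1 _ _ _

/-- **All of `SL₃(K)` almost fixes `f`** when the 12 generators do. -/
theorem sl3_disp (θ : K) (hθ : Submodule.span (ZMod 2) (Set.range fun i : ℕ => θ ^ i) = ⊤)
    (f : H) {ε : ℝ} (hε : 0 ≤ ε) (hε1 : ε ≤ 1)
    (h1 : ∀ (i j : Fin 3) (h : i ≠ j), ‖π (tv h (1 : K)) f - f‖ ≤ ε * ‖f‖)
    (h2 : ∀ (i j : Fin 3) (h : i ≠ j), ‖π (tv h θ) f - f‖ ≤ ε * ‖f‖)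
    (g : Matrix.SpecialLinearGroup (Fin 3) K) :
    ‖π g f - f‖ ≤ 100 * √ε * ‖f‖ := by
  have hroot : ∀ (i j : Fin 3) (h : i ≠ j) (c : K), ‖π (tv h c) f - f‖ ≤ 10 * √ε * ‖f‖ := by
    intro i k hik c
    obtain ⟨j, hij, hjk⟩ : ∃ j : Fin 3, i ≠ j ∧ j ≠ k := by
      revert i k; decide
    exact root_disp π θ hθ f hε hε1 h1 h2 i j k hij hik hjk c
  have := gauss (fun g => ‖π g f - f‖) (10 * √ε * ‖f‖) (fun g h => disp_mul π f g h)
    (fun i j h c => hroot i j h c) (by positivity) g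
  calc _ ≤ _ := this
    _ = _ := by ring

end kazhdan

end Vale.Agent.P330.H143
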