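import Vale.Agent.P330.H143.SL3

/-!
# Kazhdan constant of `J ⋊ SL₃(K)` (P330, EXP3)
-/

set_option linter.all false

namespace Vale.Agent.P330.H143

open Finset Module Matrix

variable {K : Type*} [Field K] [Fintype K] [Algebra (ZMod 2) K]
variable {J : Type*} [AddCommGroup J] [Module (ZMod 2) J] [Fintype J]
variable {G : Type*} [Group G]
variable {H : Type*} [NormedAddCommGroup H] [InnerProductSpace ℝ H]

noncomputable instance instFintypeSL3 : Fintype (Matrix.SpecialLinearGroup (Fin 3) K) :=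
  Fintype.ofFinite _

lemma disp_inv (π : G →* (H ≃ₗᵢ[ℝ] H)) (f : H) (g : G) :
    ‖π g⁻¹ f - f‖ = ‖π g f - f‖ := by
  have h1 : π g⁻¹ f - f = - π g⁻¹ (π g f - f) := by
    rw [map_sub]
    have : π g⁻¹ (π g f) = f := by
      have h2 : π g⁻¹ (π g f) = (π g⁻¹ * π g) f := rfl
      rw [h2, ← map_mul, inv_mul_cancel, map_one]; rfl
    rw [this]; abel
  rw [h1, norm_neg, LinearIsometryEquiv.norm_map]

open Classical in
/-- every element of `J ⋊ SL₃(K)` almost fixes `f` when the generators do -/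
theorem semi_disp (θ : K) (hθ : Submodule.span (ZMod 2) (Set.range fun i : ℕ => θ ^ i) = ⊤)
    (ι : Multiplicative J →* G) (κ : Matrix.SpecialLinearGroup (Fin 3) K →* G)
    (act : Matrix.SpecialLinearGroup (Fin 3) K → J → J)
    (hact : ∀ γ x, κ γ * ι (Multiplicative.ofAdd x) = ι (Multiplicative.ofAdd (act γ x)) * κ γ)
    (hgen : ∀ g : G, ∃ x γ, g = ι (Multiplicative.ofAdd x) * κ γ)
    {n : ℕ} (s : Fin n → J)
    (hbias : ∀ ψ : Dual (ZMod 2) J, ψ ≠ 0 → ∃ i,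
      Fintype.card (Matrix.SpecialLinearGroup (Fin 3) K) ≤
        4 * (univ.filter fun γ : Matrix.SpecialLinearGroup (Fin 3) K => ψ (act γ (s i)) ≠ 0).card)
    (π : G →* (H ≃ₗᵢ[ℝ] H)) (f : H) {ε : ℝ} (hε : 0 ≤ ε) (hε1 : ε ≤ 1)
    (h1 : ∀ (i j : Fin 3) (h : i ≠ j), ‖π (κ (tv h (1 : K))) f - f‖ ≤ ε * ‖f‖)
    (h2 : ∀ (i j : Fin 3) (h : i ≠ j), ‖π (κ (tv h θ)) f - f‖ ≤ ε * ‖f‖)
    (h3 : ∀ i, ‖π (ι (Multiplicative.ofAdd (s i))) f - f‖ ≤ ε * ‖f‖) (g : G) :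
    ‖π g f - f‖ ≤ 502 * √((n + 1 : ℕ) * ε) * ‖f‖ := by
  have hγ : ∀ γ : Matrix.SpecialLinearGroup (Fin 3) K, ‖π (κ γ) f - f‖ ≤ 100 * √ε * ‖f‖ :=
    fun γ => sl3_disp (π.comp κ) θ hθ f hε hε1 h1 h2 γ
  have hsε : ε ≤ √ε := by
    apply Real.le_sqrt_of_sq_le
    nlinarith
  have hconj : ∀ (γ : Matrix.SpecialLinearGroup (Fin 3) K) (i : Fin n),
      ‖(π.comp ι) (Multiplicative.ofAdd (act γ (s i))) f - f‖ ≤ 201 * √ε * ‖f‖ := by
    intro γ i
    have e : ι (Multiplicative.ofAdd (act γ (s i))) =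
        κ γ * ι (Multiplicative.ofAdd (s i)) * (κ γ)⁻¹ := by
      rw [hact, mul_assoc, mul_inv_cancel, mul_one]
    rw [MonoidHom.comp_apply, e]
    have a1 := disp_mul π f (κ γ * ι (Multiplicative.ofAdd (s i))) (κ γ)⁻¹
    have a2 := disp_mul π f (κ γ) (ι (Multiplicative.ofAdd (s i)))
    rw [disp_inv] at a1
    have a3 := hγ γ
    have a4 := h3 i
    have a5 : ε * ‖f‖ ≤ √ε * ‖f‖ := mul_le_mul_of_nonneg_right hsε (norm_nonneg _)
    linarith
  -- weights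
  have hw : ∀ (γ : Matrix.SpecialLinearGroup (Fin 3) K) (i : Fin n),
      ∑ ψ ∈ univ.filter (fun ψ : Dual (ZMod 2) J => ψ (act γ (s i)) ≠ 0), wt (π.comp ι) ψ f
        ≤ 201 ^ 2 / 4 * ε * ‖f‖ ^ 2 := by
    intro γ i
    have b1 := disp_eq (π.comp ι) (act γ (s i)) f
    have b2 := pow_le_pow_left₀ (norm_nonneg _) (hconj γ i) 2
    rw [mul_pow, mul_pow, Real.sq_sqrt hε] at b2
    have b3 : ∑ ψ ∈ univ.filter (fun ψ : Dual (ZMod 2) J => ψ (act γ (s i)) ≠ 0),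
        wt (π.comp ι) ψ f =
        ‖(π.comp ι) (Multiplicative.ofAdd (act γ (s i))) f - f‖ ^ 2 / 4 := by
      rw [b1]
      have : (4 : ℝ) ≠ 0 := by norm_num
      field_simp
    rw [b3]
    linarith
  have hcard : (0 : ℝ) < Fintype.card (Matrix.SpecialLinearGroup (Fin 3) K) := by
    have : 0 < Fintype.card (Matrix.SpecialLinearGroup (Fin 3) K) := Fintype.card_pos
    exact_mod_cast this
  -- sum over γ and i
  have hsum : (Fintype.card (Matrix.SpecialLinearGroup (Fin 3) K) : ℝ) * ∑ ψ ∈ univ.filter (fun ψ : Dual (ZMod 2) J => ψ ≠ 0),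
      wt (π.comp ι) ψ f ≤ 4 * (Fintype.card (Matrix.SpecialLinearGroup (Fin 3) K) * (n * (201 ^ 2 / 4 * ε * ‖f‖ ^ 2))) := by
    have c1 : ∑ γ : Matrix.SpecialLinearGroup (Fin 3) K, ∑ i : Fin n,
        ∑ ψ ∈ univ.filter (fun ψ : Dual (ZMod 2) J => ψ (act γ (s i)) ≠ 0), wt (π.comp ι) ψ f
        ≤ Fintype.card (Matrix.SpecialLinearGroup (Fin 3) K) * (n * (201 ^ 2 / 4 * ε * ‖f‖ ^ 2)) := by
      calc _ ≤ ∑ γ : Matrix.SpecialLinearGroup (Fin 3) K, ∑ i : Fin n, 201 ^ 2 / 4 * ε * ‖f‖ ^ 2 :=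
            Finset.sum_le_sum fun γ _ => Finset.sum_le_sum fun i _ => hw γ i
        _ = _ := by simp
    have c2 : ∑ γ : Matrix.SpecialLinearGroup (Fin 3) K, ∑ i : Fin n,
        ∑ ψ ∈ univ.filter (fun ψ : Dual (ZMod 2) J => ψ (act γ (s i)) ≠ 0), wt (π.comp ι) ψ f
        = ∑ ψ : Dual (ZMod 2) J, ∑ i : Fin n,
          ((univ.filter fun γ : Matrix.SpecialLinearGroup (Fin 3) K => ψ (act γ (s i)) ≠ 0).card : ℝ) * wt (π.comp ι) ψ f := by
      simp only [Finset.sum_filter]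
      rw [Finset.sum_comm]
      have : ∀ i : Fin n, ∑ γ : Matrix.SpecialLinearGroup (Fin 3) K, ∑ ψ : Dual (ZMod 2) J,
          (if ψ (act γ (s i)) ≠ 0 then wt (π.comp ι) ψ f else 0) =
          ∑ ψ : Dual (ZMod 2) J, ((univ.filter fun γ : Matrix.SpecialLinearGroup (Fin 3) K => ψ (act γ (s i)) ≠ 0).card : ℝ) *
            wt (π.comp ι) ψ f := by
        intro i
        rw [Finset.sum_comm]
        refine Finset.sum_congr rfl fun ψ _ => ?_
        rw [← Finset.sum_filter, Finset.sum_const, nsmul_eq_mul]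
      rw [Finset.sum_congr rfl fun i _ => this i, Finset.sum_comm]
    rw [c2] at c1
    have c3 : (Fintype.card (Matrix.SpecialLinearGroup (Fin 3) K) : ℝ) * ∑ ψ ∈ univ.filter (fun ψ : Dual (ZMod 2) J => ψ ≠ 0),
        wt (π.comp ι) ψ f ≤ 4 * ∑ ψ : Dual (ZMod 2) J, ∑ i : Fin n,
          ((univ.filter fun γ : Matrix.SpecialLinearGroup (Fin 3) K => ψ (act γ (s i)) ≠ 0).card : ℝ) * wt (π.comp ι) ψ f := by
      rw [Finset.sum_filter, Finset.mul_sum, Finset.mul_sum]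
      refine Finset.sum_le_sum fun ψ _ => ?_
      have hp := wt_nonneg (π.comp ι) ψ f
      by_cases hψ : ψ = 0
      · rw [if_neg (by simpa using hψ), mul_zero]
        exact mul_nonneg (by norm_num) (Finset.sum_nonneg fun i _ =>
          mul_nonneg (Nat.cast_nonneg _) hp)
      · rw [if_pos hψ]
        obtain ⟨i, hi⟩ := hbias ψ hψ
        have hi' : (Fintype.card (Matrix.SpecialLinearGroup (Fin 3) K) : ℝ) ≤
            4 * ((univ.filter fun γ : Matrix.SpecialLinearGroup (Fin 3) K => ψ (act γ (s i)) ≠ 0).card : ℝ) := by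
          exact_mod_cast hi
        calc (Fintype.card (Matrix.SpecialLinearGroup (Fin 3) K) : ℝ) * wt (π.comp ι) ψ f
            ≤ (4 * ((univ.filter fun γ : Matrix.SpecialLinearGroup (Fin 3) K => ψ (act γ (s i)) ≠ 0).card : ℝ)) *
              wt (π.comp ι) ψ f := mul_le_mul_of_nonneg_right hi' hp
          _ = 4 * (((univ.filter fun γ : Matrix.SpecialLinearGroup (Fin 3) K => ψ (act γ (s i)) ≠ 0).card : ℝ) *
              wt (π.comp ι) ψ f) := by ring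
          _ ≤ _ := by
              refine mul_le_mul_of_nonneg_left ?_ (by norm_num)
              exact Finset.single_le_sum (f := fun i =>
                ((univ.filter fun γ : Matrix.SpecialLinearGroup (Fin 3) K => ψ (act γ (s i)) ≠ 0).card : ℝ) * wt (π.comp ι) ψ f)
                (fun i _ => mul_nonneg (Nat.cast_nonneg _) hp) (Finset.mem_univ i)
    linarith
  have hJ : ‖f - comp (π.comp ι) 0 f‖ ^ 2 ≤ n * (201 ^ 2 * ε * ‖f‖ ^ 2) := by
    have d1 := sum_wt_ne_zero (π.comp ι) f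
    have d2 : (Fintype.card (Matrix.SpecialLinearGroup (Fin 3) K) : ℝ) * ‖f - comp (π.comp ι) 0 f‖ ^ 2 ≤
        (Fintype.card (Matrix.SpecialLinearGroup (Fin 3) K) : ℝ) * (n * (201 ^ 2 * ε * ‖f‖ ^ 2)) := by
      rw [← d1]
      calc _ ≤ _ := hsum
        _ = _ := by ring
    exact le_of_mul_le_mul_left d2 hcard
  have hJ' : ‖f - comp (π.comp ι) 0 f‖ ≤ 201 * √((n + 1 : ℕ) * ε) * ‖f‖ := by
    apply abs_le_of_sq_le_sq' _ (by positivity) |>.2
    calc _ ≤ n * (201 ^ 2 * ε * ‖f‖ ^ 2) := hJ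
      _ ≤ (n + 1 : ℕ) * (201 ^ 2 * ε * ‖f‖ ^ 2) := by
          refine mul_le_mul_of_nonneg_right ?_ (by positivity)
          push_cast; linarith
      _ = (201 * √((n + 1 : ℕ) * ε) * ‖f‖) ^ 2 := by
          rw [mul_pow, mul_pow, Real.sq_sqrt (by positivity)]; ring
  obtain ⟨x, γ, rfl⟩ := hgen g
  have e1 := disp_mul π f (ι (Multiplicative.ofAdd x)) (κ γ)
  have e2 := norm_comp_zero_disp (π.comp ι) x f
  have e3 := hγ γ
  have e4 : √ε ≤ √((n + 1 : ℕ) * ε) := by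
    apply Real.sqrt_le_sqrt
    push_cast
    nlinarith [mul_nonneg (Nat.cast_nonneg n : (0:ℝ) ≤ n) hε]
  have e5 : √ε * ‖f‖ ≤ √((n + 1 : ℕ) * ε) * ‖f‖ := mul_le_mul_of_nonneg_right e4 (norm_nonneg _)
  rw [MonoidHom.comp_apply] at e2
  linarith

end Vale.Agent.P330.H143
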