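import Mathlib

/-!
# Orthogonal representations of elementary abelian 2-groups: spectral weights (P330, block EXP)
-/

namespace Vale.Agent.P330.H143

open Finset Module

section sgn

/-- the sign character of `ZMod 2` -/
def sgn (x : ZMod 2) : ℝ := if x = 0 then 1 else -1

@[simp] lemma sgn_zero : sgn 0 = 1 := by simp [sgn]

lemma sgn_add (x y : ZMod 2) : sgn (x + y) = sgn x * sgn y := by
  have h : ∀ x y : ZMod 2, (x + y = 0 ↔ (x = 0 ∧ y = 0) ∨ (x ≠ 0 ∧ y ≠ 0)) := by decide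
  unfold sgn
  by_cases hx : x = 0 <;> by_cases hy : y = 0 <;> simp [hx, hy, h]

lemma sgn_sq (x : ZMod 2) : sgn x * sgn x = 1 := by
  unfold sgn; split_ifs <;> norm_num

lemma sgn_ne {x : ZMod 2} (h : x ≠ 0) : sgn x = -1 := by simp [sgn, h]

lemma abs_sgn (x : ZMod 2) : |sgn x| = 1 := by unfold sgn; split_ifs <;> norm_num

end sgn

variable {V : Type*} [AddCommGroup V] [Module (ZMod 2) V] [Fintype V]

noncomputable instance instFintypeDual : Fintype (Dual (ZMod 2) V) :=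
  haveI : Finite (Dual (ZMod 2) V) :=
    Finite.of_injective (fun χ : Dual (ZMod 2) V => (χ : V → ZMod 2)) DFunLike.coe_injective
  Fintype.ofFinite _

lemma exists_dual_ne {w : V} (hw : w ≠ 0) : ∃ χ : Dual (ZMod 2) V, χ w ≠ 0 := by
  by_contra h
  push Not at h
  exact hw ((Module.forall_dual_apply_eq_zero_iff (ZMod 2) w).1 h)

/-- orthogonality over `V` -/
lemma sum_sgn_left (χ : Dual (ZMod 2) V) (h : χ ≠ 0) : ∑ w : V, sgn (χ w) = 0 := by
  obtain ⟨u, hu⟩ : ∃ u, χ u ≠ 0 := by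
    by_contra h2
    push Not at h2
    exact h (LinearMap.ext h2)
  have h1 : ∑ w : V, sgn (χ w) = ∑ w : V, sgn (χ (w + u)) :=
    (Equiv.sum_comp (Equiv.addRight u) fun w => sgn (χ w)).symm
  simp only [map_add, sgn_add, sgn_ne hu] at h1
  rw [← Finset.sum_mul] at h1
  linarith

/-- orthogonality over the dual -/
lemma sum_sgn_right (w : V) (h : w ≠ 0) : ∑ χ : Dual (ZMod 2) V, sgn (χ w) = 0 := by
  obtain ⟨ψ, hu⟩ := exists_dual_ne h
  have h1 : ∑ χ : Dual (ZMod 2) V, sgn (χ w) = ∑ χ : Dual (ZMod 2) V, sgn ((χ + ψ) w) :=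
    (Equiv.sum_comp (Equiv.addRight ψ) fun χ : Dual (ZMod 2) V => sgn (χ w)).symm
  simp only [LinearMap.add_apply, sgn_add, sgn_ne hu] at h1
  rw [← Finset.sum_mul] at h1
  linarith

lemma card_dual : Fintype.card (Dual (ZMod 2) V) = Fintype.card V := by
  have e := (Module.finBasis (ZMod 2) V).toDualEquiv
  exact (Fintype.card_congr e.toEquiv).symm

variable {H : Type*} [NormedAddCommGroup H] [InnerProductSpace ℝ H]

/-- spectral component of `f` for the character `χ` -/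
noncomputable def comp (σ : Multiplicative V →* (H ≃ₗᵢ[ℝ] H)) (χ : Dual (ZMod 2) V) (f : H) : H :=
  (Fintype.card V : ℝ)⁻¹ • ∑ w : V, sgn (χ w) • σ (Multiplicative.ofAdd w) f

variable (σ : Multiplicative V →* (H ≃ₗᵢ[ℝ] H))

lemma comp_sub (χ : Dual (ZMod 2) V) (f g : H) : comp σ χ (f - g) = comp σ χ f - comp σ χ g := by
  simp only [comp, map_sub, smul_sub, Finset.sum_sub_distrib]

lemma comp_add (χ : Dual (ZMod 2) V) (f g : H) : comp σ χ (f + g) = comp σ χ f + comp σ χ g := by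
  simp only [comp, map_add, smul_add, Finset.sum_add_distrib]

omit [Module (ZMod 2) V] in
lemma cardV_ne : (Fintype.card V : ℝ) ≠ 0 := by
  have : 0 < Fintype.card V := Fintype.card_pos
  positivity

omit [Module (ZMod 2) V] in
lemma cardV_pos : 0 < (Fintype.card V : ℝ) := by
  have : 0 < Fintype.card V := Fintype.card_pos
  positivity

/-- inversion: `f` is the sum of its components -/
lemma sum_comp (f : H) : ∑ χ : Dual (ZMod 2) V, comp σ χ f = f := by
  simp only [comp]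
  rw [← Finset.smul_sum, Finset.sum_comm]
  simp only [← Finset.sum_smul]
  rw [Finset.sum_eq_single (0 : V)]
  · simp only [map_zero, sgn_zero, Finset.sum_const, Finset.card_univ, card_dual, nsmul_eq_mul,
      mul_one, ofAdd_zero, map_one, LinearIsometryEquiv.coe_one, id_eq, smul_smul]
    rw [inv_mul_cancel₀ cardV_ne, one_smul]
  · intro w _ hw
    rw [sum_sgn_right w hw, zero_smul]
  · simp

lemma sigma_comp (χ : Dual (ZMod 2) V) (w : V) (f : H) :
    σ (Multiplicative.ofAdd w) (comp σ χ f) = sgn (χ w) • comp σ χ f := by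
  simp only [comp, map_smul, map_sum]
  rw [smul_comm]
  congr 1
  rw [Finset.smul_sum]
  conv_rhs => rw [← Equiv.sum_comp (Equiv.addLeft w)]
  refine Finset.sum_congr rfl fun u _ => ?_
  have h1 : σ (Multiplicative.ofAdd (w + u)) f =
      σ (Multiplicative.ofAdd w) (σ (Multiplicative.ofAdd u) f) := by
    rw [ofAdd_add, map_mul]; rfl
  simp only [Equiv.coe_addLeft, map_add, sgn_add, smul_smul]
  rw [h1, ← mul_assoc, sgn_sq, one_mul]

lemma inner_comp_comp (χ ψ : Dual (ZMod 2) V) (h : χ ≠ ψ) (f g : H) :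
    inner ℝ (comp σ χ f) (comp σ ψ g) = 0 := by
  obtain ⟨w, hw⟩ : ∃ w, χ w ≠ ψ w := by
    by_contra h2
    push Not at h2
    exact h (LinearMap.ext h2)
  have h1 : inner ℝ (σ (Multiplicative.ofAdd w) (comp σ χ f))
      (σ (Multiplicative.ofAdd w) (comp σ ψ g)) = inner ℝ (comp σ χ f) (comp σ ψ g) :=
    LinearIsometryEquiv.inner_map_map _ _ _
  rw [sigma_comp, sigma_comp, real_inner_smul_left, real_inner_smul_right, ← mul_assoc] at h1
  have h2 : sgn (χ w) * sgn (ψ w) = -1 := by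
    rw [← sgn_add, sgn_ne]
    intro h3
    apply hw
    have h4 : ∀ a b : ZMod 2, a + b = 0 → a = b := by decide
    exact h4 _ _ h3
  rw [h2] at h1
  linarith

/-- spectral weight -/
noncomputable def wt (σ : Multiplicative V →* (H ≃ₗᵢ[ℝ] H)) (χ : Dual (ZMod 2) V) (f : H) : ℝ :=
  ‖comp σ χ f‖ ^ 2

lemma wt_nonneg (χ : Dual (ZMod 2) V) (f : H) : 0 ≤ wt σ χ f := sq_nonneg _

lemma inner_self_sum (f : H) :
    ∑ χ : Dual (ZMod 2) V, wt σ χ f = ‖f‖ ^ 2 := by
  have h : inner ℝ (∑ χ : Dual (ZMod 2) V, comp σ χ f) (∑ χ : Dual (ZMod 2) V, comp σ χ f)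
      = ∑ χ : Dual (ZMod 2) V, wt σ χ f := by
    rw [sum_inner]
    refine Finset.sum_congr rfl fun χ _ => ?_
    rw [inner_sum, Finset.sum_eq_single χ]
    · rw [real_inner_self_eq_norm_sq, wt]
    · intro ψ _ hψ
      exact inner_comp_comp σ χ ψ hψ.symm f f
    · simp
  rw [← h, sum_comp, real_inner_self_eq_norm_sq]

/-- displacement of `f` by an element of `V` -/
lemma disp_eq (w : V) (f : H) :
    ‖σ (Multiplicative.ofAdd w) f - f‖ ^ 2
      = 4 * ∑ χ ∈ univ.filter (fun χ : Dual (ZMod 2) V => χ w ≠ 0), wt σ χ f := by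
  rw [← inner_self_sum σ (σ (Multiplicative.ofAdd w) f - f), Finset.sum_filter, Finset.mul_sum]
  refine Finset.sum_congr rfl fun χ _ => ?_
  have h1 : comp σ χ (σ (Multiplicative.ofAdd w) f) = sgn (χ w) • comp σ χ f := by
    rw [← sigma_comp]
    simp only [comp, map_smul, map_sum]
    congr 1
    refine Finset.sum_congr rfl fun u _ => ?_
    congr 1
    have h2 : ∀ a b : V, σ (Multiplicative.ofAdd a) (σ (Multiplicative.ofAdd b) f) =
        σ (Multiplicative.ofAdd (a + b)) f := by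
      intro a b
      rw [ofAdd_add, map_mul]; rfl
    rw [h2, h2, add_comm]
  rw [wt, comp_sub, h1]
  by_cases h : χ w = 0
  · simp [h]
  · rw [sgn_ne h, if_pos h, wt]
    rw [show (-1 : ℝ) • comp σ χ f - comp σ χ f = (-2 : ℝ) • comp σ χ f by module]
    rw [norm_smul]
    norm_num
    ring

lemma sum_wt_ne_zero (f : H) :
    ∑ χ ∈ univ.filter (fun χ : Dual (ZMod 2) V => χ ≠ 0), wt σ χ f
      = ‖f - comp σ 0 f‖ ^ 2 := by
  rw [← inner_self_sum σ (f - comp σ 0 f), Finset.sum_filter]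
  refine Finset.sum_congr rfl fun χ _ => ?_
  have h0 : ∀ χ : Dual (ZMod 2) V, comp σ χ (comp σ 0 f) = if χ = 0 then comp σ 0 f else 0 := by
    intro χ
    rw [comp]
    have : ∀ w : V, σ (Multiplicative.ofAdd w) (comp σ 0 f) = comp σ 0 f := by
      intro w
      rw [sigma_comp]; simp
    simp only [this]
    rw [← Finset.sum_smul]
    split_ifs with h
    · subst h
      simp only [LinearMap.zero_apply, sgn_zero, Finset.sum_const, Finset.card_univ,
        nsmul_eq_mul, mul_one, smul_smul]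
      rw [inv_mul_cancel₀ cardV_ne, one_smul]
    · rw [sum_sgn_left χ h, zero_smul, smul_zero]
  rw [wt, wt, comp_sub, h0]
  by_cases h2 : χ = 0
  · subst h2; simp
  · simp [h2]

lemma norm_comp_zero_disp (w : V) (f : H) :
    ‖σ (Multiplicative.ofAdd w) f - f‖ ≤ 2 * ‖f - comp σ 0 f‖ := by
  have h1 : σ (Multiplicative.ofAdd w) f - f
      = σ (Multiplicative.ofAdd w) (f - comp σ 0 f) - (f - comp σ 0 f) := by
    rw [map_sub, sigma_comp]; simp
  rw [h1]
  calc _ ≤ ‖σ (Multiplicative.ofAdd w) (f - comp σ 0 f)‖ + ‖f - comp σ 0 f‖ := norm_sub_le _ _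
    _ = _ := by rw [LinearIsometryEquiv.norm_map]; ring

/-- weights of sets of characters are continuous in `f` -/
lemma sum_wt_sub_le (f g : H) (B : Finset (Dual (ZMod 2) V)) :
    ∑ χ ∈ B, wt σ χ f - ∑ χ ∈ B, wt σ χ g ≤ ‖f - g‖ * ‖f + g‖ := by
  rw [← Finset.sum_sub_distrib]
  have h1 : ∀ χ : Dual (ZMod 2) V, wt σ χ f - wt σ χ g ≤
      ‖comp σ χ (f - g)‖ * ‖comp σ χ (f + g)‖ := by
    intro χ
    have h2 : wt σ χ f - wt σ χ g = inner ℝ (comp σ χ (f - g)) (comp σ χ (f + g)) := by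
      rw [comp_sub, comp_add, wt, wt, ← real_inner_self_eq_norm_sq, ← real_inner_self_eq_norm_sq]
      rw [inner_sub_left, inner_add_right, inner_add_right, real_inner_comm (comp σ χ f)
        (comp σ χ g)]
      ring
    rw [h2]
    exact real_inner_le_norm _ _
  calc ∑ χ ∈ B, (wt σ χ f - wt σ χ g)
      ≤ ∑ χ ∈ B, ‖comp σ χ (f - g)‖ * ‖comp σ χ (f + g)‖ := Finset.sum_le_sum fun χ _ => h1 χ
    _ ≤ ∑ χ : Dual (ZMod 2) V, ‖comp σ χ (f - g)‖ * ‖comp σ χ (f + g)‖ :=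
        Finset.sum_le_sum_of_subset_of_nonneg (Finset.subset_univ _)
          fun _ _ _ => mul_nonneg (norm_nonneg _) (norm_nonneg _)
    _ ≤ √(∑ χ : Dual (ZMod 2) V, ‖comp σ χ (f - g)‖ ^ 2) *
        √(∑ χ : Dual (ZMod 2) V, ‖comp σ χ (f + g)‖ ^ 2) :=
        Real.sum_mul_le_sqrt_mul_sqrt _ _ _
    _ = ‖f - g‖ * ‖f + g‖ := by
        have h3 := inner_self_sum σ (f - g)
        have h4 := inner_self_sum σ (f + g)
        simp only [wt] at h3 h4
        rw [h3, h4, Real.sqrt_sq (norm_nonneg _), Real.sqrt_sq (norm_nonneg _)]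

/-- equivariance of the components -/
lemma comp_equiv (T : H ≃ₗᵢ[ℝ] H) (α : V ≃ₗ[ZMod 2] V)
    (hT : ∀ w f, T (σ (Multiplicative.ofAdd w) f) = σ (Multiplicative.ofAdd (α w)) (T f))
    (χ : Dual (ZMod 2) V) (f : H) :
    comp σ χ (T f) = T (comp σ (χ ∘ₗ (α : V →ₗ[ZMod 2] V)) f) := by
  simp only [comp, map_smul, map_sum, hT]
  congr 1
  rw [← Equiv.sum_comp α.toEquiv]
  refine Finset.sum_congr rfl fun u _ => ?_
  simp

lemma wt_equiv (T : H ≃ₗᵢ[ℝ] H) (α : V ≃ₗ[ZMod 2] V)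
    (hT : ∀ w f, T (σ (Multiplicative.ofAdd w) f) = σ (Multiplicative.ofAdd (α w)) (T f))
    (χ : Dual (ZMod 2) V) (f : H) :
    wt σ χ (T f) = wt σ (χ ∘ₗ (α : V →ₗ[ZMod 2] V)) f := by
  rw [wt, wt, comp_equiv σ T α hT, LinearIsometryEquiv.norm_map]

open Classical in
/-- transport of the weight of a set of characters -/
lemma move (T : H ≃ₗᵢ[ℝ] H) (α : V ≃ₗ[ZMod 2] V)
    (hT : ∀ w f, T (σ (Multiplicative.ofAdd w) f) = σ (Multiplicative.ofAdd (α w)) (T f))
    (P Q : Dual (ZMod 2) V → Prop) (hPQ : ∀ χ, P χ → Q (χ ∘ₗ (α : V →ₗ[ZMod 2] V))) (f : H)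
    {ε : ℝ} (hε : ‖T f - f‖ ≤ ε * ‖f‖) :
    ∑ χ ∈ univ.filter P, wt σ χ f
      ≤ ∑ χ ∈ univ.filter Q, wt σ χ f + 2 * ε * ‖f‖ ^ 2 := by
  have h1 := sum_wt_sub_le σ f (T f) (univ.filter P)
  have h2 : ∑ χ ∈ univ.filter P, wt σ χ (T f) ≤ ∑ χ ∈ univ.filter Q, wt σ χ f := by
    simp only [wt_equiv σ T α hT]
    have hinj : Set.InjOn (fun χ : Dual (ZMod 2) V => χ ∘ₗ (α : V →ₗ[ZMod 2] V))
        (univ.filter P : Finset (Dual (ZMod 2) V)) := by
      intro χ _ ψ _ h
      ext w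
      have := LinearMap.congr_fun h (α.symm w)
      simpa using this
    rw [← Finset.sum_image (f := fun χ => wt σ χ f) hinj]
    apply Finset.sum_le_sum_of_subset_of_nonneg
    · intro χ hχ
      rw [Finset.mem_image] at hχ
      obtain ⟨ψ, hψ, rfl⟩ := hχ
      rw [Finset.mem_filter] at hψ ⊢
      exact ⟨Finset.mem_univ _, hPQ ψ hψ.2⟩
    · intro _ _ _
      exact wt_nonneg _ _ _
  have h3 : ‖f - T f‖ * ‖f + T f‖ ≤ 2 * ε * ‖f‖ ^ 2 := by
    have h4 : ‖f + T f‖ ≤ 2 * ‖f‖ := by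
      calc _ ≤ ‖f‖ + ‖T f‖ := norm_add_le _ _
        _ = _ := by rw [LinearIsometryEquiv.norm_map]; ring
    rw [norm_sub_rev]
    calc ‖T f - f‖ * ‖f + T f‖ ≤ (ε * ‖f‖) * (2 * ‖f‖) :=
          mul_le_mul hε h4 (norm_nonneg _) (le_trans (norm_nonneg _) hε)
      _ = _ := by ring
  linarith

end Vale.Agent.P330.H143
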