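import Vale.Agent.P330.H143.Semi

/-!
# From the Kazhdan constant to small spectral radius of words (P330, EXP3, final form)
-/

set_option linter.all false

namespace Vale.Agent.P330.H143

open Finset Module Matrix

section words

variable {G : Type*} [Group G] {L : Type*} [Fintype L]

/-- letters with laziness: `(l, true)` is the letter, `(l, false)` is trivial -/
def lz (letter : L → G) (p : L × Bool) : G := if p.2 then letter p.1 else 1

/-- product of a word -/
def wprod (letter : L → G) : (t : ℕ) → (Fin t → L × Bool) → G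
  | 0, _ => 1
  | t + 1, w => lz letter (w 0) * wprod letter t (fun i => w i.succ)

/-- sum over words -/
noncomputable def wsum {M : Type*} [AddCommMonoid M] (letter : L → G) (t : ℕ) (F : G → M) : M :=
  ∑ w : Fin t → L × Bool, F (wprod letter t w)

variable {M : Type*} [AddCommMonoid M]

lemma wsum_zero (letter : L → G) (F : G → M) : wsum letter 0 F = F 1 := by
  simp [wsum, wprod]

lemma wsum_succ (letter : L → G) (t : ℕ) (F : G → M) :
    wsum letter (t + 1) F = ∑ p : L × Bool, wsum letter t (fun x => F (lz letter p * x)) := by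
  unfold wsum
  have h := (Fin.consEquiv (n := t) (fun _ => L × Bool)).sum_comp
    (fun w => F (wprod letter (t + 1) w))
  rw [← h, Fintype.sum_prod_type]
  rfl

lemma wsum_succ' (letter : L → G) (t : ℕ) (F : G → M) :
    wsum letter (t + 1) F = ∑ p : L × Bool, wsum letter t (fun x => F (x * lz letter p)) := by
  induction t generalizing F with
  | zero => simp [wsum_succ, wsum_zero]
  | succ t ih =>
    rw [wsum_succ]
    conv_lhs => enter [2, p]; rw [ih]
    rw [Finset.sum_comm]
    refine Finset.sum_congr rfl fun p _ => ?_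
    rw [wsum_succ letter t (fun x => F (x * lz letter p))]
    simp only [mul_assoc]

lemma wsum_inv (letter : L → G) (hinv : ∀ l, letter l * letter l = 1) (t : ℕ) (F : G → M) :
    wsum letter t (fun x => F x⁻¹) = wsum letter t F := by
  induction t generalizing F with
  | zero => simp [wsum_zero]
  | succ t ih =>
    rw [wsum_succ, wsum_succ']
    refine Finset.sum_congr rfl fun p _ => ?_
    have h : (lz letter p)⁻¹ = lz letter p := by
      unfold lz
      split_ifs
      · exact inv_eq_of_mul_eq_one_left (hinv _)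
      · exact inv_one
    have := ih (fun x => F (x * lz letter p))
    rw [← this]
    simp only [_root_.mul_inv_rev, h]

end words

section gap

variable {K : Type*} [Field K] [Fintype K] [Algebra (ZMod 2) K]
variable {J : Type*} [AddCommGroup J] [Module (ZMod 2) J] [Fintype J]
variable {G : Type*} [Group G] [Fintype G]
variable {H : Type*} [NormedAddCommGroup H] [InnerProductSpace ℝ H]

lemma avg_disp (π : G →* (H ≃ₗᵢ[ℝ] H)) (f : H) (h0 : ∑ g : G, π g f = 0) {δ : ℝ}
    (h : ∀ g : G, ‖π g f - f‖ ≤ δ) : ‖f‖ ≤ δ := by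
  have hc : (0 : ℝ) < Fintype.card G := by
    have : 0 < Fintype.card G := Fintype.card_pos
    exact_mod_cast this
  have h1 : (Fintype.card G : ℝ) • f = - ∑ g : G, (π g f - f) := by
    rw [Finset.sum_sub_distrib, h0, Finset.sum_const, Finset.card_univ]
    rw [zero_sub, neg_neg, Nat.cast_smul_eq_nsmul]
  have h2 : (Fintype.card G : ℝ) * ‖f‖ ≤ Fintype.card G * δ := by
    calc (Fintype.card G : ℝ) * ‖f‖ = ‖(Fintype.card G : ℝ) • f‖ := by
          rw [norm_smul, Real.norm_of_nonneg hc.le]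
      _ = ‖∑ g : G, (π g f - f)‖ := by rw [h1, norm_neg]
      _ ≤ ∑ g : G, ‖π g f - f‖ := norm_sum_le _ _
      _ ≤ ∑ g : G, δ := Finset.sum_le_sum fun g _ => h g
      _ = _ := by simp
  exact le_of_mul_le_mul_left h2 hc

/-- the Kazhdan constant -/
noncomputable def eps0 (n : ℕ) : ℝ := 1 / (504 ^ 2 * (n + 1))

lemma eps0_pos (n : ℕ) : 0 < eps0 n := by unfold eps0; positivity

lemma eps0_le (n : ℕ) : eps0 n ≤ 1 := by
  unfold eps0
  rw [div_le_one (by positivity)]
  have : (0 : ℝ) ≤ n := Nat.cast_nonneg n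
  nlinarith

/-- data for the expander `J ⋊ SL₃(K)`: the group, the bias hypothesis and the letters -/
structure EData (K : Type*) [Field K] [Fintype K] [Algebra (ZMod 2) K]
    (J : Type*) [AddCommGroup J] [Module (ZMod 2) J] [Fintype J]
    (G : Type*) [Group G] (L : Type*) (n : ℕ) where
  θ : K
  hθ : Submodule.span (ZMod 2) (Set.range fun i : ℕ => θ ^ i) = ⊤
  ι : Multiplicative J →* G
  κ : Matrix.SpecialLinearGroup (Fin 3) K →* G
  act : Matrix.SpecialLinearGroup (Fin 3) K → J → J
  hact : ∀ γ x, κ γ * ι (Multiplicative.ofAdd x) = ι (Multiplicative.ofAdd (act γ x)) * κ γ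
  hgen : ∀ g : G, ∃ x γ, g = ι (Multiplicative.ofAdd x) * κ γ
  s : Fin n → J
  hbias : ∀ ψ : Dual (ZMod 2) J, ψ ≠ 0 → ∃ i,
      Nat.card (Matrix.SpecialLinearGroup (Fin 3) K) ≤
        4 * Nat.card {γ : Matrix.SpecialLinearGroup (Fin 3) K // ψ (act γ (s i)) ≠ 0}
  letter : L → G
  hinv : ∀ l, letter l * letter l = 1
  cov1 : ∀ (i j : Fin 3) (h : i ≠ j), ∃ l, letter l = κ (tv h (1 : K))
  cov2 : ∀ (i j : Fin 3) (h : i ≠ j), ∃ l, letter l = κ (tv h θ)
  cov3 : ∀ i, ∃ l, letter l = ι (Multiplicative.ofAdd (s i))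

variable {L : Type*} [Fintype L] {n : ℕ}

theorem gap (E : EData K J G L n) (π : G →* (H ≃ₗᵢ[ℝ] H)) (f : H) (h0 : ∑ g : G, π g f = 0) :
    ∃ l, eps0 n * ‖f‖ ≤ ‖π (E.letter l) f - f‖ := by
  classical
  by_contra hn
  push Not at hn
  obtain ⟨l0, -⟩ := E.cov1 0 1 (by decide)
  have hf : f ≠ 0 := by
    intro hf
    have := hn l0
    rw [hf] at this
    simp at this
  have hpos : 0 < ‖f‖ := norm_pos_iff.2 hf
  have hb : ∀ ψ : Dual (ZMod 2) J, ψ ≠ 0 → ∃ i,
      Fintype.card (Matrix.SpecialLinearGroup (Fin 3) K) ≤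
        4 * (univ.filter fun γ : Matrix.SpecialLinearGroup (Fin 3) K =>
          ψ (E.act γ (E.s i)) ≠ 0).card := by
    intro ψ hψ
    obtain ⟨i, hi⟩ := E.hbias ψ hψ
    refine ⟨i, ?_⟩
    rw [Nat.card_eq_fintype_card, Nat.card_eq_fintype_card, Fintype.card_subtype] at hi
    convert hi
  have key : ∀ g, ‖π g f - f‖ ≤ 502 * √((n + 1 : ℕ) * eps0 n) * ‖f‖ := by
    intro g
    refine semi_disp E.θ E.hθ E.ι E.κ E.act E.hact E.hgen E.s ?_ π f (eps0_pos n).le (eps0_le n)
      ?_ ?_ ?_ g
    · intro ψ hψ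
      obtain ⟨i, hi⟩ := hb ψ hψ
      refine ⟨i, ?_⟩
      convert hi
    · intro i j h
      obtain ⟨l, hl⟩ := E.cov1 i j h
      rw [← hl]; exact (hn l).le
    · intro i j h
      obtain ⟨l, hl⟩ := E.cov2 i j h
      rw [← hl]; exact (hn l).le
    · intro i
      obtain ⟨l, hl⟩ := E.cov3 i
      rw [← hl]; exact (hn l).le
  have h1 := avg_disp π f h0 key
  have h2 : √((n + 1 : ℕ) * eps0 n) = 1 / 504 := by
    have : ((n + 1 : ℕ) : ℝ) * eps0 n = (1 / 504) ^ 2 := by
      unfold eps0; push_cast; field_simp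
    rw [this, Real.sqrt_sq (by norm_num)]
  rw [h2] at h1
  linarith

/-- loss factor -/
noncomputable def loss (n m : ℕ) : ℝ := 1 - eps0 n ^ 2 / (4 * m)

lemma loss_lt (n m : ℕ) (hm : 0 < m) : loss n m < 1 := by
  unfold loss
  have := eps0_pos n
  have : (0 : ℝ) < m := by exact_mod_cast hm
  have : 0 < eps0 n ^ 2 / (4 * m) := by positivity
  linarith

lemma loss_nonneg (n m : ℕ) (hm : 0 < m) : 0 ≤ loss n m := by
  unfold loss
  have h1 := eps0_pos n
  have h2 := eps0_le n
  have hm' : (1 : ℝ) ≤ m := by exact_mod_cast hm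
  have : eps0 n ^ 2 / (4 * m) ≤ 1 := by
    rw [div_le_one (by positivity)]
    nlinarith
  linarith

lemma step_norm (E : EData K J G L n) (π : G →* (H ≃ₗᵢ[ℝ] H)) (f : H)
    (h0 : ∑ g : G, π g f = 0) :
    ‖∑ p : L × Bool, π (lz E.letter p) f‖ ^ 2
      ≤ (2 * Fintype.card L) ^ 2 * loss n (Fintype.card L) * ‖f‖ ^ 2 := by
  obtain ⟨l0, hl0⟩ := gap E π f h0
  haveI : Nonempty L := ⟨l0⟩
  have hm : (0 : ℝ) < Fintype.card L := by
    have : 0 < Fintype.card L := Fintype.card_pos
    exact_mod_cast this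
  have e1 : ∑ p : L × Bool, π (lz E.letter p) f = ∑ l : L, (π (E.letter l) f + f) := by
    rw [Fintype.sum_prod_type]
    refine Finset.sum_congr rfl fun l _ => ?_
    rw [Fintype.sum_bool]
    simp [lz]
  rw [e1]
  have e2 : ∀ l, ‖π (E.letter l) f + f‖ ^ 2 = 4 * ‖f‖ ^ 2 - ‖π (E.letter l) f - f‖ ^ 2 := by
    intro l
    have := parallelogram_law_with_norm ℝ (π (E.letter l) f) f
    rw [LinearIsometryEquiv.norm_map] at this
    nlinarith
  calc ‖∑ l : L, (π (E.letter l) f + f)‖ ^ 2
      ≤ (∑ l : L, ‖π (E.letter l) f + f‖) ^ 2 :=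
        pow_le_pow_left₀ (norm_nonneg _) (norm_sum_le _ _) 2
    _ ≤ (Fintype.card L : ℝ) * ∑ l : L, ‖π (E.letter l) f + f‖ ^ 2 := by
        have := sq_sum_le_card_mul_sum_sq (s := (univ : Finset L))
          (f := fun l => ‖π (E.letter l) f + f‖)
        simpa using this
    _ = (Fintype.card L : ℝ) * (Fintype.card L * (4 * ‖f‖ ^ 2) -
          ∑ l : L, ‖π (E.letter l) f - f‖ ^ 2) := by
        simp only [e2]
        rw [Finset.sum_sub_distrib]
        simp
    _ ≤ (Fintype.card L : ℝ) * (Fintype.card L * (4 * ‖f‖ ^ 2) - (eps0 n * ‖f‖) ^ 2) := by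
        refine mul_le_mul_of_nonneg_left ?_ hm.le
        have h3 : (eps0 n * ‖f‖) ^ 2 ≤ ∑ l : L, ‖π (E.letter l) f - f‖ ^ 2 := by
          calc (eps0 n * ‖f‖) ^ 2 ≤ ‖π (E.letter l0) f - f‖ ^ 2 :=
                pow_le_pow_left₀ (mul_nonneg (eps0_pos n).le (norm_nonneg _)) hl0 2
            _ ≤ _ := Finset.single_le_sum (f := fun l => ‖π (E.letter l) f - f‖ ^ 2)
                (fun _ _ => sq_nonneg _) (Finset.mem_univ l0)
        linarith
    _ = _ := by
        unfold loss
        field_simp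
        ring

lemma words_norm (E : EData K J G L n) (π : G →* (H ≃ₗᵢ[ℝ] H)) (f : H)
    (h0 : ∑ g : G, π g f = 0) (t : ℕ) :
    ‖wsum E.letter t (fun x => π x f)‖ ^ 2
      ≤ ((2 * Fintype.card L) ^ 2 * loss n (Fintype.card L)) ^ t * ‖f‖ ^ 2 := by
  induction t with
  | zero => rw [wsum_zero, map_one]; simp
  | succ t ih =>
    obtain ⟨l0, hl0⟩ := gap E π f h0
    haveI : Nonempty L := ⟨l0⟩
    have hmean : ∑ g : G, π g (wsum E.letter t (fun x => π x f)) = 0 := by
      unfold wsum
      simp only [map_sum]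
      rw [Finset.sum_comm]
      refine Finset.sum_eq_zero fun w _ => ?_
      have : ∀ g : G, π g (π (wprod E.letter t w) f) = π (g * wprod E.letter t w) f := by
        intro g; rw [map_mul]; rfl
      simp only [this]
      rw [← h0]
      exact Equiv.sum_comp (Equiv.mulRight (wprod E.letter t w)) fun g => π g f
    have e : wsum E.letter (t + 1) (fun x => π x f)
        = ∑ p : L × Bool, π (lz E.letter p) (wsum E.letter t (fun x => π x f)) := by
      rw [wsum_succ]
      refine Finset.sum_congr rfl fun p _ => ?_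
      unfold wsum
      rw [map_sum]
      refine Finset.sum_congr rfl fun w _ => ?_
      show π (lz E.letter p * wprod E.letter t w) f = _
      rw [map_mul]; rfl
    rw [e]
    have h1 := step_norm E π _ hmean
    have h2 : 0 ≤ (2 * (Fintype.card L : ℝ)) ^ 2 * loss n (Fintype.card L) :=
      mul_nonneg (by positivity) (loss_nonneg _ _ Fintype.card_pos)
    calc _ ≤ _ := h1
      _ ≤ (2 * (Fintype.card L : ℝ)) ^ 2 * loss n (Fintype.card L) *
          (((2 * Fintype.card L) ^ 2 * loss n (Fintype.card L)) ^ t * ‖f‖ ^ 2) :=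
          mul_le_mul_of_nonneg_left ih h2
      _ = _ := by ring

end gap

end Vale.Agent.P330.H143
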